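import Vale.Agent.Lib.P061.Defs

/-!
# Multigraphs without parallel edges
-/

namespace Vale.Agent.Lib.P061

variable {V E : Type}

/-- The multigraph has no parallel edges: two edges with the same pair of ends are equal. -/
def Multigraph.IsSimple (G : Multigraph V E) : Prop :=
  ∀ e f : E, ((G.src e = G.src f ∧ G.tgt e = G.tgt f) ∨
    (G.src e = G.tgt f ∧ G.tgt e = G.src f)) → e = f

end Vale.Agent.Lib.P061
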