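import Vale.Agent.Lib.P061.Basic
import Vale.Agent.Lib.P061.Dense.Simple

/-!
# Dense simple graphs: basic notions and the partition potential
-/

namespace Vale.Agent.Lib.P061

open Finset

variable {V E : Type} [Fintype V] [Fintype E] [DecidableEq V] [DecidableEq E]

set_option linter.unusedSectionVars false

/-- Edges with one end in `X` and the other end in `Y`. -/
def Multigraph.btw (G : Multigraph V E) (X Y : Finset V) : Finset E :=
  univ.filter (fun e => (G.src e ∈ X ∧ G.tgt e ∈ Y) ∨ (G.src e ∈ Y ∧ G.tgt e ∈ X))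

lemma Multigraph.mem_btw (G : Multigraph V E) (X Y : Finset V) (e : E) :
    e ∈ G.btw X Y ↔ (G.src e ∈ X ∧ G.tgt e ∈ Y) ∨ (G.src e ∈ Y ∧ G.tgt e ∈ X) := by
  simp [Multigraph.btw]

/-- The colour class of colour `j`. -/
def cls (c : V → V) (j : V) : Finset V := univ.filter (fun x => c x = j)

lemma mem_cls (c : V → V) (j x : V) : x ∈ cls c j ↔ c x = j := by
  simp [cls]

/-- Edges whose two ends have the same colour. -/
def Multigraph.intraE (G : Multigraph V E) (c : V → V) : Finset E :=
  univ.filter (fun e => c (G.src e) = c (G.tgt e))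

lemma Multigraph.mem_intraE (G : Multigraph V E) (c : V → V) (e : E) :
    e ∈ G.intraE c ↔ c (G.src e) = c (G.tgt e) := by
  simp [Multigraph.intraE]

/-- Ordered pairs of vertices with the same colour. -/
def samePairs (c : V → V) : Finset (V × V) := univ.filter (fun p => c p.1 = c p.2)

lemma mem_samePairs (c : V → V) (p : V × V) : p ∈ samePairs c ↔ c p.1 = c p.2 := by
  simp [samePairs]

/-- The potential maximised by the partition. -/
def Multigraph.pot (G : Multigraph V E) (k : ℕ) (c : V → V) : ℤ :=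
  4 * (Fintype.card V : ℤ) * ((G.intraE c).card : ℤ) - (k : ℤ) * ((samePairs c).card : ℤ)

lemma card_cross (X Y : Finset V) (h : Disjoint X Y) :
    (X ×ˢ Y ∪ Y ×ˢ X).card = 2 * (X.card * Y.card) := by
  rw [card_union_of_disjoint, card_product, card_product]
  · ring
  · rw [Finset.disjoint_left]
    intro p hp hq
    rw [mem_product] at hp hq
    exact (Finset.disjoint_left.mp h) hp.1 hq.1

/-- Split stability: in a potential-maximising colouring every class is cut-dense. -/
lemma Multigraph.split_stable (G : Multigraph V E) (k : ℕ) (c : V → V)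
    (hmax : ∀ c', G.pot k c' ≤ G.pot k c) (j : V) (X : Finset V) (hX : ∀ x ∈ X, c x = j) :
    k * (X.card * (cls c j \ X).card) ≤
      2 * Fintype.card V * (G.btw X (cls c j \ X)).card := by
  set Y := cls c j \ X with hY
  rcases X.eq_empty_or_nonempty with hXe | ⟨x0, hx0⟩
  · simp [hXe]
  rcases Y.eq_empty_or_nonempty with hYe | ⟨y0, hy0⟩
  · simp [hYe]
  have hy0' : c y0 = j ∧ y0 ∉ X := by
    rw [hY, mem_sdiff, mem_cls] at hy0
    exact hy0
  -- a colour not used by `c`
  have hninj : ¬ Function.Injective c := by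
    intro hinj
    have : x0 = y0 := hinj ((hX x0 hx0).trans hy0'.1.symm)
    exact hy0'.2 (this ▸ hx0)
  have hnsurj : ¬ Function.Surjective c := fun hs => hninj (Finite.injective_iff_surjective.mpr hs)
  obtain ⟨j0, hj0⟩ : ∃ j0, ∀ x, c x ≠ j0 := by
    by_contra hcon
    refine hnsurj (fun j0 => ?_)
    by_contra hj
    exact hcon ⟨j0, fun x hx => hj ⟨x, hx⟩⟩
  set c' : V → V := fun x => if x ∈ X then j0 else c x with hc'
  have hYmem : ∀ y, y ∈ Y ↔ c y = j ∧ y ∉ X := by
    intro y
    rw [hY, mem_sdiff, mem_cls]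
  have hdisj : Disjoint X Y := by
    rw [Finset.disjoint_left]
    intro a ha hb
    exact ((hYmem a).mp hb).2 ha
  -- edges
  have hE : G.intraE c' = G.intraE c \ G.btw X Y := by
    ext e
    rw [mem_sdiff, G.mem_intraE, G.mem_intraE, G.mem_btw, hYmem, hYmem]
    simp only [hc']
    by_cases h1 : G.src e ∈ X <;> by_cases h2 : G.tgt e ∈ X
    · have ha := hX _ h1; have hb := hX _ h2
      simp [h1, h2]; rw [ha, hb]
    · have := hX _ h1
      have := hj0 (G.tgt e)
      simp [h1, h2]
      constructor
      · intro h; exact absurd h.symm ‹_›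
      · rintro ⟨h3, h4⟩
        exact absurd (h3 ▸ ‹c (G.src e) = j›) h4
    · have := hX _ h2
      have := hj0 (G.src e)
      simp [h1, h2]
      constructor
      · intro h; exact absurd h ‹_›
      · rintro ⟨h3, h4⟩
        exact absurd (h3 ▸ ‹c (G.tgt e) = j›) h4
    · simp [h1, h2]
  have hEsub : G.btw X Y ⊆ G.intraE c := by
    intro e he
    rw [G.mem_btw, hYmem, hYmem] at he
    rw [G.mem_intraE]
    rcases he with ⟨h1, h2, _⟩ | ⟨⟨h1, _⟩, h2⟩
    · rw [hX _ h1, h2]
    · rw [hX _ h2, h1]
  have hEc : (G.intraE c').card + (G.btw X Y).card = (G.intraE c).card := by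
    rw [hE]
    exact card_sdiff_add_card_eq_card hEsub
  -- pairs
  have hP : samePairs c' = samePairs c \ (X ×ˢ Y ∪ Y ×ˢ X) := by
    ext ⟨a, b⟩
    rw [mem_sdiff, mem_samePairs, mem_samePairs, mem_union, mem_product, mem_product, hYmem, hYmem]
    simp only [hc']
    by_cases h1 : a ∈ X <;> by_cases h2 : b ∈ X
    · have ha := hX _ h1; have hb := hX _ h2
      simp [h1, h2]; rw [ha, hb]
    · have := hX _ h1
      have := hj0 b
      simp [h1, h2]
      constructor
      · intro h; exact absurd h.symm ‹_›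
      · rintro ⟨h3, h4⟩
        exact absurd (h3 ▸ ‹c a = j›) h4
    · have := hX _ h2
      have := hj0 a
      simp [h1, h2]
      constructor
      · intro h; exact absurd h ‹_›
      · rintro ⟨h3, h4⟩
        exact absurd (h3 ▸ ‹c b = j›) h4
    · simp [h1, h2]
  have hPsub : (X ×ˢ Y ∪ Y ×ˢ X) ⊆ samePairs c := by
    rintro ⟨a, b⟩ hp
    rw [mem_union, mem_product, mem_product, hYmem, hYmem] at hp
    rw [mem_samePairs]
    rcases hp with ⟨h1, h2, _⟩ | ⟨⟨h1, _⟩, h2⟩
    · show c a = c b
      rw [hX _ h1, h2]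
    · show c a = c b
      rw [hX _ h2, h1]
  have hPc : (samePairs c').card + 2 * (X.card * Y.card) = (samePairs c).card := by
    rw [hP, ← card_cross X Y hdisj]
    exact card_sdiff_add_card_eq_card hPsub
  have hpot := hmax c'
  unfold Multigraph.pot at hpot
  have h1 : ((G.intraE c).card : ℤ) = (G.intraE c').card + (G.btw X Y).card := by
    exact_mod_cast hEc.symm
  have h2 : ((samePairs c).card : ℤ) = (samePairs c').card + 2 * (X.card * Y.card) := by
    exact_mod_cast hPc.symm
  rw [h1, h2] at hpot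
  have h3 : (k : ℤ) * ((X.card : ℤ) * (Y.card : ℤ)) ≤
      2 * (Fintype.card V : ℤ) * ((G.btw X Y).card : ℤ) := by
    nlinarith
  exact_mod_cast h3

end Vale.Agent.Lib.P061
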