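import Vale.Agent.Lib.P061.Dense.Initial

/-!
# Dense simple graphs: the degree bound for a potential-minimising spanning tree
-/

namespace Vale.Agent.Lib.P061

open Finset

variable {V E : Type} [Fintype V] [Fintype E] [DecidableEq V] [DecidableEq E]

set_option linter.unusedSectionVars false

lemma arith_key (D k a n Sg h : ℕ) (hD : 3 ≤ D) (ha : 1 ≤ a) (h1 : D * k * a ≤ 2 * n * Sg)
    (h2 : Sg + D ≤ a + D * h) (h3 : (D - 1) * h ≤ 2 * a) : D * k ≤ 8 * n := by
  obtain ⟨D1, rfl⟩ : ∃ D1, D = D1 + 3 := ⟨D - 3, by omega⟩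
  have h3' : (D1 + 2) * h ≤ 2 * a := by
    have : D1 + 3 - 1 = D1 + 2 := by omega
    rw [this] at h3
    exact h3
  have s1 : Sg ≤ a + (D1 + 3) * h := by linarith
  have key : (D1 + 2) * a * ((D1 + 3) * k) ≤ (D1 + 2) * a * (8 * n) :=
    calc (D1 + 2) * a * ((D1 + 3) * k) = (D1 + 2) * ((D1 + 3) * k * a) := by ring
      _ ≤ (D1 + 2) * (2 * n * Sg) := Nat.mul_le_mul_left _ h1
      _ ≤ (D1 + 2) * (2 * n * (a + (D1 + 3) * h)) :=
          Nat.mul_le_mul_left _ (Nat.mul_le_mul_left _ s1)
      _ = 2 * n * ((D1 + 2) * a + (D1 + 3) * ((D1 + 2) * h)) := by ring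
      _ ≤ 2 * n * ((D1 + 2) * a + (D1 + 3) * (2 * a)) :=
          Nat.mul_le_mul_left _ (Nat.add_le_add_left (Nat.mul_le_mul_left _ h3') _)
      _ = 2 * n * (a * (3 * D1 + 8)) := by ring
      _ ≤ 2 * n * (a * (4 * D1 + 8)) :=
          Nat.mul_le_mul_left _ (Nat.mul_le_mul_left _ (by omega))
      _ = (D1 + 2) * a * (8 * n) := by ring
  exact Nat.le_of_mul_le_mul_left key (Nat.mul_pos (by omega) (by omega))

lemma card_filter_exchange (T : Finset E) (e f : E) (he : e ∈ T) (hf : f ∉ T) (P : E → Prop)
    [DecidablePred P] :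
    ((insert f (T.erase e)).filter P).card + (if P e then 1 else 0) =
      (T.filter P).card + (if P f then 1 else 0) := by
  have hf' : f ∉ (T.filter P).erase e := fun h => hf (mem_of_mem_filter _ (mem_of_mem_erase h))
  rw [filter_insert, filter_erase]
  by_cases h1 : P f <;> by_cases h2 : P e
  · rw [if_pos h1, if_pos h2, if_pos h1, card_insert_of_notMem hf',
      card_erase_of_mem (mem_filter.mpr ⟨he, h2⟩)]
    have := card_pos.mpr ⟨e, mem_filter.mpr ⟨he, h2⟩⟩
    omega
  · rw [if_pos h1, if_neg h2, if_pos h1, card_insert_of_notMem hf',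
      erase_eq_of_notMem (fun h => h2 (mem_filter.mp h).2)]
  · rw [if_neg h1, if_pos h2, if_neg h1, card_erase_of_mem (mem_filter.mpr ⟨he, h2⟩)]
    have := card_pos.mpr ⟨e, mem_filter.mpr ⟨he, h2⟩⟩
    omega
  · rw [if_neg h1, if_neg h2, if_neg h1, erase_eq_of_notMem (fun h => h2 (mem_filter.mp h).2)]

/-- The number of edges of `T` at `x` whose two ends have the same colour. -/
def Multigraph.indeg (G : Multigraph V E) (c : V → V) (T : Finset E) (x : V) : ℕ :=
  (T.filter (fun e => c (G.src e) = c (G.tgt e) ∧ (G.src e = x ∨ G.tgt e = x))).card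

/-- The potential minimised by the spanning tree. -/
def Multigraph.phi (G : Multigraph V E) (c : V → V) (T : Finset E) : ℕ :=
  ∑ x : V, (G.indeg c T x) ^ 2

/-- The number of edges of `T` whose two ends have different colours. -/
def Multigraph.inter (G : Multigraph V E) (c : V → V) (T : Finset E) : ℕ :=
  (T.filter (fun e => ¬ c (G.src e) = c (G.tgt e))).card

/-- Double counting: the degrees inside `U` of an edge set `A` sum to at most `2 |A|`. -/
lemma Multigraph.sum_deg_le (G : Multigraph V E) (A : Finset E) (U : Finset V) :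
    ∑ y ∈ U, (A.filter (fun e => G.src e = y ∨ G.tgt e = y)).card ≤ 2 * A.card := by
  calc ∑ y ∈ U, (A.filter (fun e => G.src e = y ∨ G.tgt e = y)).card
      = ∑ y ∈ U, ∑ e ∈ A, ((if G.src e = y then 1 else 0) + (if G.tgt e = y then 1 else 0)) := by
        refine sum_congr rfl (fun y _ => ?_)
        rw [card_filter]
        refine sum_congr rfl (fun e _ => ?_)
        have hl := G.loopless e
        by_cases h1 : G.src e = y <;> by_cases h2 : G.tgt e = y
        · exact absurd (h1.trans h2.symm) hl
        · simp [h1, h2]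
        · simp [h1, h2]
        · simp [h1, h2]
    _ = ∑ e ∈ A, ∑ y ∈ U, ((if G.src e = y then 1 else 0) + (if G.tgt e = y then 1 else 0)) :=
        sum_comm
    _ = ∑ e ∈ A, ((if G.src e ∈ U then 1 else 0) + (if G.tgt e ∈ U then 1 else 0)) := by
        refine sum_congr rfl (fun e _ => ?_)
        rw [sum_add_distrib, sum_ite_eq, sum_ite_eq]
    _ ≤ ∑ e ∈ A, 2 := by
        refine sum_le_sum (fun e _ => ?_)
        by_cases h1 : G.src e ∈ U <;> by_cases h2 : G.tgt e ∈ U <;> simp [h1, h2]
    _ = 2 * A.card := by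
        rw [sum_const, smul_eq_mul, mul_comm]

/-- If a spanning tree minimises `phi` among spanning trees with the same number of
inter-class edges, then an exchange at `v` cannot lower the potential. -/
lemma Multigraph.exchange_deg (G : Multigraph V E) (c : V → V) (T : Finset E)
    (hT : G.IsSpanningTree T)
    (hmin : ∀ T', G.IsSpanningTree T' → G.inter c T' = G.inter c T → G.phi c T ≤ G.phi c T')
    (v : V) (e : E) (he : e ∈ T) (hec : c (G.src e) = c (G.tgt e))
    (hev : G.src e = v ∨ G.tgt e = v)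
    (f : E) (hfc : c (G.src f) = c (G.tgt f)) (y : V)
    (hf : (G.src f = G.other e v ∧ G.tgt f = y) ∨ (G.src f = y ∧ G.tgt f = G.other e v))
    (hy : y ≠ v) (hyB : ¬ (G.graphOf (G.avoid T v)).Reachable (G.other e v) y) :
    G.indeg c T v ≤ G.indeg c T y + 1 := by
  have hce := G.other_ne e v hev
  have hyce : y ≠ G.other e v := by
    intro h
    rcases hf with ⟨h1, h2⟩ | ⟨h1, h2⟩
    · exact G.loopless f (h1.trans (h.symm.trans h2.symm))
    · exact G.loopless f (h1.trans (h.trans h2.symm))
  have hfT : f ∉ T := by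
    intro hfT
    apply hyB
    have hadj : (G.graphOf (G.avoid T v)).Adj (G.other e v) y := by
      rw [G.graphOf_adj_iff]
      refine ⟨f, ?_, hf⟩
      rw [G.mem_avoid]
      rcases hf with ⟨h1, h2⟩ | ⟨h1, h2⟩
      · exact ⟨hfT, by rw [h1]; exact hce, by rw [h2]; exact hy⟩
      · exact ⟨hfT, by rw [h1]; exact hy, by rw [h2]; exact hce⟩
    exact hadj.reachable
  set T' := insert f (T.erase e) with hT'
  have hT'tree : G.IsSpanningTree T' := by
    refine ⟨G.exchange_connected T hT.1 v e he hev f y hf hy hyB, ?_⟩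
    have h1 : f ∉ T.erase e := fun h => hfT (mem_of_mem_erase h)
    rw [hT', card_insert_of_notMem h1, card_erase_of_mem he]
    have h2 := card_pos.mpr ⟨e, he⟩
    have h3 := hT.2
    omega
  have hinter : G.inter c T' = G.inter c T := by
    have h := card_filter_exchange T e f he hfT (fun e => ¬ c (G.src e) = c (G.tgt e))
    rw [if_neg (not_not.mpr hec), if_neg (not_not.mpr hfc)] at h
    exact h
  have hphi := hmin T' hT'tree hinter
  have hdeg : ∀ x, G.indeg c T' x + (if (G.src e = x ∨ G.tgt e = x) then 1 else 0) =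
      G.indeg c T x + (if (G.src f = x ∨ G.tgt f = x) then 1 else 0) := by
    intro x
    have h := card_filter_exchange T e f he hfT
      (fun e => c (G.src e) = c (G.tgt e) ∧ (G.src e = x ∨ G.tgt e = x))
    simp only [hec, hfc, true_and] at h
    exact h
  have hfv : ¬ (G.src f = v ∨ G.tgt f = v) := by
    rintro (h | h)
    · rcases hf with ⟨h1, _⟩ | ⟨h1, _⟩
      · exact hce (h1.symm.trans h)
      · exact hy (h1.symm.trans h)
    · rcases hf with ⟨_, h2⟩ | ⟨_, h2⟩
      · exact hy (h2.symm.trans h)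
      · exact hce (h2.symm.trans h)
  have hey : ¬ (G.src e = y ∨ G.tgt e = y) := by
    rintro (h | h)
    · rcases G.ends_other e v hev with ⟨h1, _⟩ | ⟨h1, _⟩
      · exact hyce (h.symm.trans h1)
      · exact hy (h.symm.trans h1)
    · rcases G.ends_other e v hev with ⟨_, h2⟩ | ⟨_, h2⟩
      · exact hy (h.symm.trans h2)
      · exact hyce (h.symm.trans h2)
  have hfy : G.src f = y ∨ G.tgt f = y := by
    rcases hf with ⟨_, h2⟩ | ⟨h1, _⟩
    · exact Or.inr h2
    · exact Or.inl h1
  have hv : G.indeg c T' v + 1 = G.indeg c T v := by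
    have h := hdeg v
    rw [if_pos hev, if_neg hfv] at h
    exact h
  have hy' : G.indeg c T' y = G.indeg c T y + 1 := by
    have h := hdeg y
    rw [if_neg hey, if_pos hfy] at h
    exact h
  have hother : ∀ x, x ≠ v → x ≠ y → G.indeg c T' x = G.indeg c T x := by
    intro x hxv hxy
    have h := hdeg x
    have h1 : (G.src e = x ∨ G.tgt e = x) ↔ x = G.other e v := by
      constructor
      · rintro (h | h)
        · rcases G.ends_other e v hev with ⟨h1, _⟩ | ⟨h1, _⟩
          · exact h.symm.trans h1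
          · exact absurd (h.symm.trans h1) hxv
        · rcases G.ends_other e v hev with ⟨_, h2⟩ | ⟨_, h2⟩
          · exact absurd (h.symm.trans h2) hxv
          · exact h.symm.trans h2
      · intro hx
        rcases G.ends_other e v hev with ⟨h1, _⟩ | ⟨_, h2⟩
        · exact Or.inl (h1.trans hx.symm)
        · exact Or.inr (h2.trans hx.symm)
    have h2 : (G.src f = x ∨ G.tgt f = x) ↔ x = G.other e v := by
      constructor
      · rintro (h | h)
        · rcases hf with ⟨h1, _⟩ | ⟨h1, _⟩
          · exact h.symm.trans h1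
          · exact absurd (h.symm.trans h1) hxy
        · rcases hf with ⟨_, h2⟩ | ⟨_, h2⟩
          · exact absurd (h.symm.trans h2) hxy
          · exact h.symm.trans h2
      · intro hx
        rcases hf with ⟨h1, _⟩ | ⟨_, h2⟩
        · exact Or.inl (h1.trans hx.symm)
        · exact Or.inr (h2.trans hx.symm)
    by_cases hx : x = G.other e v
    · rw [if_pos (h1.mpr hx), if_pos (h2.mpr hx)] at h
      omega
    · rw [if_neg (fun h' => hx (h1.mp h')), if_neg (fun h' => hx (h2.mp h'))] at h
      omega
  have hsum : ∀ g : V → ℕ, ∑ x, g x = g v + g y + ∑ x ∈ (univ.erase v).erase y, g x := by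
    intro g
    rw [← add_sum_erase univ g (mem_univ v),
      ← add_sum_erase (univ.erase v) g (mem_erase.mpr ⟨hy, mem_univ y⟩)]
    ring
  unfold Multigraph.phi at hphi
  rw [hsum (fun x => G.indeg c T x ^ 2), hsum (fun x => G.indeg c T' x ^ 2)] at hphi
  have hrest : ∑ x ∈ (univ.erase v).erase y, G.indeg c T' x ^ 2 =
      ∑ x ∈ (univ.erase v).erase y, G.indeg c T x ^ 2 := by
    refine sum_congr rfl (fun x hx => ?_)
    rw [mem_erase, mem_erase] at hx
    rw [hother x hx.2.1 hx.1]
  rw [hrest, hy', ← hv] at hphi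
  rw [← hv]
  nlinarith

/-- Degree bound: in a `phi`-minimising spanning tree every vertex has at most `8 n / k` tree
edges inside its class. -/
lemma Multigraph.indeg_bound (G : Multigraph V E) (hs : G.IsSimple) (k : ℕ) (c : V → V)
    (hcd : G.CutDense k c) (hsize : ∀ x, k + 2 ≤ 2 * (cls c (c x)).card)
    (T : Finset E) (hT : G.IsSpanningTree T)
    (hmin : ∀ T', G.IsSpanningTree T' → G.inter c T' = G.inter c T → G.phi c T ≤ G.phi c T')
    (v : V) : G.indeg c T v * k ≤ 8 * Fintype.card V := by
  classical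
  set n := Fintype.card V with hn
  set D := G.indeg c T v with hD
  set U := cls c (c v) with hU
  have hvU : v ∈ U := by rw [hU, mem_cls]
  have hu : k + 2 ≤ 2 * U.card := hsize v
  have hun : U.card ≤ n := card_le_univ U
  rcases Nat.eq_zero_or_pos k with hk0 | hkpos
  · rw [hk0, mul_zero]
    exact Nat.zero_le _
  by_cases hD3 : D < 3
  · have h1 : D * k ≤ 2 * k := Nat.mul_le_mul_right k (by omega)
    omega
  have hD3' : 3 ≤ D := by omega
  set Ev := T.filter (fun e => c (G.src e) = c (G.tgt e) ∧ (G.src e = v ∨ G.tgt e = v)) with hEv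
  have hEvcard : Ev.card = D := rfl
  set B : E → Finset V := fun e =>
    univ.filter (fun z => (G.graphOf (G.avoid T v)).Reachable (G.other e v) z) with hB
  have hBmem : ∀ e z, z ∈ B e ↔ (G.graphOf (G.avoid T v)).Reachable (G.other e v) z := by
    intro e z
    simp only [hB, mem_filter, mem_univ, true_and]
  set Hi := U.filter (fun y => D ≤ G.indeg c T y + 1) with hHi
  set inc : V → Finset E := fun x =>
    univ.filter (fun f => c (G.src f) = c (G.tgt f) ∧ (G.src f = x ∨ G.tgt f = x)) with hinc
  have hincmem : ∀ x f, f ∈ inc x ↔ c (G.src f) = c (G.tgt f) ∧ (G.src f = x ∨ G.tgt f = x) := by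
    intro x f
    simp only [hinc, mem_filter, mem_univ, true_and]
  have hEvmem : ∀ e ∈ Ev, e ∈ T ∧ c (G.src e) = c (G.tgt e) ∧ (G.src e = v ∨ G.tgt e = v) := by
    intro e he
    rw [hEv, mem_filter] at he
    exact he
  have hceU : ∀ e ∈ Ev, G.other e v ∈ U := by
    intro e he
    obtain ⟨_, hc, hev⟩ := hEvmem e he
    rw [hU, mem_cls]
    rcases G.ends_other e v hev with ⟨h1, h2⟩ | ⟨h1, h2⟩
    · rw [← h1, hc, h2]
    · rw [← h2, ← hc, h1]
  -- minimum degree inside the class
  have hC3d : ∀ x ∈ U, k * (U.card - 1) ≤ 2 * n * (inc x).card := by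
    intro x hx
    have hxc : c x = c v := by
      rw [hU, mem_cls] at hx
      exact hx
    have h := hcd (c v) {x} (by
      intro z hz
      rw [mem_singleton] at hz
      rw [hz]
      exact hxc)
    rw [card_singleton, one_mul] at h
    have h1 : (cls c (c v) \ {x}).card = U.card - 1 := by
      rw [card_sdiff_of_subset (singleton_subset_iff.mpr hx), card_singleton]
    have h2 : G.btw {x} (cls c (c v) \ {x}) ⊆ inc x := by
      intro f hf
      rw [G.mem_btw] at hf
      rw [hincmem]
      rcases hf with ⟨h1, h2⟩ | ⟨h1, h2⟩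
      · rw [mem_singleton] at h1
        rw [mem_sdiff, mem_cls] at h2
        exact ⟨by rw [h1, hxc, h2.1], Or.inl h1⟩
      · rw [mem_singleton] at h2
        rw [mem_sdiff, mem_cls] at h1
        exact ⟨by rw [h2, hxc, h1.1], Or.inr h2⟩
    rw [h1] at h
    exact h.trans (Nat.mul_le_mul_left _ (card_le_card h2))
  -- neighbours of the other end lie in the branch or have high degree
  have hC3a : ∀ e ∈ Ev, (inc (G.other e v)).card + 1 ≤ (B e ∩ U).card + Hi.card := by
    intro e he
    obtain ⟨heT, hec, hev⟩ := hEvmem e he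
    set ce := G.other e v with hce
    have hceU' := hceU e he
    have hceB : ce ∈ B e ∩ U := by
      rw [mem_inter, hBmem]
      exact ⟨SimpleGraph.Reachable.refl _, hceU'⟩
    have hinj : Set.InjOn (fun f => G.other f ce) (inc ce : Set E) := by
      intro f1 hf1 f2 hf2 h12
      rw [mem_coe, hincmem] at hf1 hf2
      simp only at h12
      apply hs
      rcases G.ends_other f1 ce hf1.2 with ⟨a1, a2⟩ | ⟨a1, a2⟩ <;>
      rcases G.ends_other f2 ce hf2.2 with ⟨b1, b2⟩ | ⟨b1, b2⟩
      · left; exact ⟨by rw [a1, b1, h12], by rw [a2, b2]⟩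
      · right; exact ⟨by rw [a1, b2, h12], by rw [a2, b1]⟩
      · right; exact ⟨by rw [a1, b2], by rw [a2, b1, h12]⟩
      · left; exact ⟨by rw [a1, b1], by rw [a2, b2, h12]⟩
    have himg : (inc ce).image (fun f => G.other f ce) ⊆ (B e ∩ U).erase ce ∪ Hi := by
      intro y hy
      rw [mem_image] at hy
      obtain ⟨f, hf, rfl⟩ := hy
      rw [hincmem] at hf
      obtain ⟨hfc, hfce⟩ := hf
      have hyne : G.other f ce ≠ ce := G.other_ne f ce hfce
      have hends := G.ends_other f ce hfce
      have hyU : G.other f ce ∈ U := by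
        rw [hU, mem_cls]
        have hcec : c ce = c v := by
          rw [hU, mem_cls] at hceU'
          exact hceU'
        rcases hends with ⟨h1, h2⟩ | ⟨h1, h2⟩
        · rw [← h1, hfc, h2, hcec]
        · rw [← h2, ← hfc, h1, hcec]
      rw [mem_union]
      by_cases hyB : (G.graphOf (G.avoid T v)).Reachable ce (G.other f ce)
      · left
        rw [mem_erase, mem_inter, hBmem]
        exact ⟨hyne, hyB, hyU⟩
      · right
        rw [hHi, mem_filter]
        refine ⟨hyU, ?_⟩
        by_cases hyv : G.other f ce = v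
        · rw [hyv]
          omega
        · exact G.exchange_deg c T hT hmin v e heT hec hev f hfc (G.other f ce) (by
            rcases hends with ⟨h1, h2⟩ | ⟨h1, h2⟩
            · exact Or.inr ⟨h1, h2⟩
            · exact Or.inl ⟨h1, h2⟩) hyv hyB
    have h1 := card_le_card himg
    rw [card_image_of_injOn hinj] at h1
    have h2 := card_union_le ((B e ∩ U).erase ce) Hi
    rw [card_erase_of_mem hceB] at h2
    have h3 := card_pos.mpr ⟨ce, hceB⟩
    omega
  -- the branches are disjoint
  have hC3b : ∑ e ∈ Ev, (B e ∩ U).card + 1 ≤ U.card := by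
    have hdisj : (Ev : Set E).PairwiseDisjoint (fun e => B e ∩ U) := by
      intro e he e' he' hne
      rw [Function.onFun, Finset.disjoint_left]
      intro z hz hz'
      rw [mem_inter, hBmem] at hz hz'
      obtain ⟨heT, _, hev⟩ := hEvmem e he
      obtain ⟨heT', _, hev'⟩ := hEvmem e' he'
      exact G.branch_disjoint T hT v e e' heT heT' hne hev hev' (hz.1.trans hz'.1.symm)
    rw [← card_biUnion hdisj]
    have hsub : Ev.biUnion (fun e => B e ∩ U) ⊆ U.erase v := by
      intro z hz
      rw [mem_biUnion] at hz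
      obtain ⟨e, he, hz⟩ := hz
      rw [mem_inter, hBmem] at hz
      obtain ⟨_, _, hev⟩ := hEvmem e he
      rw [mem_erase]
      refine ⟨?_, hz.2⟩
      intro hzv
      rw [hzv] at hz
      exact G.not_reachable_avoid T v (G.other e v) (G.other_ne e v hev) hz.1
    have h1 := card_le_card hsub
    rw [card_erase_of_mem hvU] at h1
    have h2 := card_pos.mpr ⟨v, hvU⟩
    omega
  -- few vertices of high degree
  have hC3c : (D - 1) * Hi.card ≤ 2 * (U.card - 1) := by
    set TU := T.filter (fun e => G.src e ∈ U ∧ G.tgt e ∈ U) with hTU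
    have h1 : ∑ y ∈ U, G.indeg c T y ≤ 2 * TU.card := by
      refine le_trans (sum_le_sum (fun y hy => ?_)) (G.sum_deg_le TU U)
      unfold Multigraph.indeg
      apply card_le_card
      intro e he
      rw [mem_filter] at he ⊢
      obtain ⟨heT, hec, hey⟩ := he
      refine ⟨?_, hey⟩
      rw [hTU, mem_filter]
      refine ⟨heT, ?_⟩
      rw [hU, mem_cls] at hy
      rw [hU, mem_cls, mem_cls]
      rcases hey with h | h
      · exact ⟨by rw [h, hy], by rw [← hec, h, hy]⟩
      · exact ⟨by rw [hec, h, hy], by rw [h, hy]⟩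
    have h2 : TU.card + 1 ≤ U.card := G.card_inside_tree_le T hT U v hvU
    have h3 : (D - 1) * Hi.card ≤ ∑ y ∈ Hi, G.indeg c T y := by
      rw [mul_comm, ← smul_eq_mul, ← sum_const]
      refine sum_le_sum (fun y hy => ?_)
      rw [hHi, mem_filter] at hy
      omega
    have h4 : ∑ y ∈ Hi, G.indeg c T y ≤ ∑ y ∈ U, G.indeg c T y :=
      sum_le_sum_of_subset (filter_subset _ _)
    omega
  -- combine
  have hS1 : ∑ e ∈ Ev, (inc (G.other e v)).card + D ≤ (U.card - 1) + D * Hi.card := by
    have h1 : ∑ e ∈ Ev, ((inc (G.other e v)).card + 1) ≤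
        ∑ e ∈ Ev, ((B e ∩ U).card + Hi.card) := sum_le_sum hC3a
    rw [sum_add_distrib, sum_add_distrib, sum_const, sum_const, smul_eq_mul, smul_eq_mul,
      hEvcard, mul_one] at h1
    omega
  have hS2 : D * k * (U.card - 1) ≤ 2 * n * ∑ e ∈ Ev, (inc (G.other e v)).card := by
    rw [mul_sum]
    calc D * k * (U.card - 1) = ∑ e ∈ Ev, k * (U.card - 1) := by
          rw [sum_const, smul_eq_mul, hEvcard]
          ring
      _ ≤ ∑ e ∈ Ev, 2 * n * (inc (G.other e v)).card :=
          sum_le_sum (fun e he => hC3d _ (hceU e he))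
  exact arith_key D k (U.card - 1) n _ Hi.card hD3' (by omega) hS2 hS1 hC3c

end Vale.Agent.Lib.P061
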