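import Vale.Agent.Lib.P061.Dense.Tree

/-!
# Dense simple graphs: a spanning tree with few edges between the classes
-/

namespace Vale.Agent.Lib.P061

open Finset

variable {V E : Type} [Fintype V] [Fintype E] [DecidableEq V] [DecidableEq E]

set_option linter.unusedSectionVars false

/-- Every colour class of `c` is cut-dense: a split of a class into `X` and the rest has at least
`k |X| |rest| / (2 n)` edges across. -/
def Multigraph.CutDense (G : Multigraph V E) (k : ℕ) (c : V → V) : Prop :=
  ∀ (j : V) (X : Finset V), (∀ x ∈ X, c x = j) →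
    k * (X.card * (cls c j \ X).card) ≤ 2 * Fintype.card V * (G.btw X (cls c j \ X)).card

/-- Cut-dense classes are connected by edges inside the class. -/
lemma Multigraph.class_connected (G : Multigraph V E) (k : ℕ) (hk : 1 ≤ k) (c : V → V)
    (hcd : G.CutDense k c) (a b : V) (hab : c a = c b) :
    (G.graphOf (G.intraE c)).Reachable a b := by
  classical
  by_contra hnr
  set X := (cls c (c a)).filter (fun z => (G.graphOf (G.intraE c)).Reachable a z) with hX
  have hXc : ∀ x ∈ X, c x = c a := by
    intro x hx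
    rw [hX, mem_filter, mem_cls] at hx
    exact hx.1
  have haX : a ∈ X := by
    rw [hX, mem_filter, mem_cls]
    exact ⟨rfl, SimpleGraph.Reachable.refl _⟩
  have hbY : b ∈ cls c (c a) \ X := by
    rw [mem_sdiff, mem_cls, hX, mem_filter]
    exact ⟨hab.symm, fun h => hnr h.2⟩
  have h := hcd (c a) X hXc
  have h1 : 0 < X.card := card_pos.mpr ⟨a, haX⟩
  have h2 : 0 < (cls c (c a) \ X).card := card_pos.mpr ⟨b, hbY⟩
  have h3 : 0 < (G.btw X (cls c (c a) \ X)).card := by
    by_contra h0
    have h0' : (G.btw X (cls c (c a) \ X)).card = 0 := by omega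
    rw [h0', mul_zero] at h
    have : 0 < k * (X.card * (cls c (c a) \ X).card) := Nat.mul_pos (by omega) (Nat.mul_pos h1 h2)
    omega
  obtain ⟨f, hf⟩ := card_pos.mp h3
  rw [G.mem_btw] at hf
  have key : ∀ x y, x ∈ X → y ∈ cls c (c a) \ X →
      ((G.src f = x ∧ G.tgt f = y) ∨ (G.src f = y ∧ G.tgt f = x)) → False := by
    intro x y hx hy hends
    have hcx := hXc x hx
    rw [mem_sdiff, mem_cls] at hy
    have hfin : f ∈ G.intraE c := by
      rw [G.mem_intraE]
      rcases hends with ⟨h1, h2⟩ | ⟨h1, h2⟩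
      · rw [h1, h2, hcx, hy.1]
      · rw [h1, h2, hcx, hy.1]
    have hadj : (G.graphOf (G.intraE c)).Adj x y := by
      rw [G.graphOf_adj_iff]
      exact ⟨f, hfin, hends⟩
    have hxr : (G.graphOf (G.intraE c)).Reachable a x := by
      rw [hX, mem_filter] at hx
      exact hx.2
    apply hy.2
    rw [hX, mem_filter, mem_cls]
    exact ⟨hy.1, hxr.trans hadj.reachable⟩
  rcases hf with ⟨h1, h2⟩ | ⟨h1, h2⟩
  · exact key _ _ h1 h2 (Or.inl ⟨rfl, rfl⟩)
  · exact key _ _ h2 h1 (Or.inr ⟨rfl, rfl⟩)

/-- An edge-connected multigraph is connected. -/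
lemma Multigraph.connected_univ (G : Multigraph V E) (k : ℕ) (hk : 1 ≤ k)
    (hconn : G.EdgeConnected k) (a : V) : (G.graphOf univ).Connected := by
  classical
  refine G.connected_of_reach univ a (fun z => ?_)
  by_contra hnr
  set S := univ.filter (fun x => (G.graphOf univ).Reachable x a) with hS
  have haS : a ∈ S := by
    rw [hS, mem_filter]
    exact ⟨mem_univ _, SimpleGraph.Reachable.refl _⟩
  have hne : S ≠ univ := by
    intro h
    have hz : z ∈ S := h ▸ mem_univ z
    rw [hS, mem_filter] at hz
    exact hnr hz.2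
  have h := hconn S ⟨a, haS⟩ hne
  have hpos : 0 < (G.cut S).card := by omega
  obtain ⟨e, he⟩ := card_pos.mp hpos
  rw [G.mem_cut] at he
  have hadj := G.graphOf_adj univ (mem_univ e)
  rcases he with ⟨h1, h2⟩ | ⟨h1, h2⟩
  · apply h2
    rw [hS, mem_filter] at h1 ⊢
    exact ⟨mem_univ _, hadj.symm.reachable.trans h1.2⟩
  · apply h1
    rw [hS, mem_filter] at h2 ⊢
    exact ⟨mem_univ _, hadj.reachable.trans h2.2⟩

/-- There is a spanning tree with at most `r - 1` edges between different classes, where `r` is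
the number of classes. -/
lemma Multigraph.exists_initial_tree (G : Multigraph V E) (hs : G.IsSimple) (k : ℕ) (hk : 1 ≤ k)
    (hconn : G.EdgeConnected k) (c : V → V) (hcd : G.CutDense k c) (a0 : V) :
    ∃ T : Finset E, G.IsSpanningTree T ∧
      (T.filter (fun e => ¬ c (G.src e) = c (G.tgt e))).card + 1 ≤ (univ.image c).card := by
  classical
  have hΓ := G.connected_univ k hk hconn a0
  obtain ⟨F, hFle, hFac, hFreach⟩ :=
    SimpleGraph.exists_isAcyclic_reachable_eq_le (G := G.graphOf (G.intraE c))
  have hFΓ : F ≤ G.graphOf univ := hFle.trans (G.graphOf_mono (subset_univ _))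
  obtain ⟨TΓ, hFT, hTΓ, hTree⟩ := hΓ.exists_isTree_le_of_le_of_isAcyclic hFΓ hFac
  set T0 : Finset E := univ.filter (fun e => TΓ.Adj (G.src e) (G.tgt e)) with hT0
  have hg : G.graphOf T0 = TΓ := by
    ext a b
    rw [G.graphOf_adj_iff]
    constructor
    · rintro ⟨e, he, h⟩
      rw [hT0, mem_filter] at he
      rcases h with ⟨h1, h2⟩ | ⟨h1, h2⟩
      · rw [← h1, ← h2]; exact he.2
      · rw [← h1, ← h2]; exact he.2.symm
    · intro hab
      have hab' := hTΓ hab
      rw [G.graphOf_adj_iff] at hab'
      obtain ⟨e, _, h⟩ := hab'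
      refine ⟨e, ?_, h⟩
      rw [hT0, mem_filter]
      refine ⟨mem_univ _, ?_⟩
      rcases h with ⟨h1, h2⟩ | ⟨h1, h2⟩
      · rw [h1, h2]; exact hab
      · rw [h1, h2]; exact hab.symm
  have hT0tree : G.IsSpanningTree T0 := by
    have h := SimpleGraph.isTree_iff_connected_and_card.mp hTree
    rw [← hg] at h
    refine ⟨h.1, ?_⟩
    have h2 := h.2
    rw [Nat.card_coe_set_eq, G.ncard_edgeSet_graphOf hs, Nat.card_eq_fintype_card] at h2
    exact h2
  refine ⟨T0, hT0tree, ?_⟩
  set A := T0.filter (fun e => c (G.src e) = c (G.tgt e)) with hA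
  have hFA : F ≤ G.graphOf A := by
    intro x y hxy
    have h1 := hFle hxy
    rw [G.graphOf_adj_iff] at h1 ⊢
    obtain ⟨e, he, h⟩ := h1
    refine ⟨e, ?_, h⟩
    rw [hA, mem_filter, hT0, mem_filter]
    rw [G.mem_intraE] at he
    refine ⟨⟨mem_univ _, ?_⟩, he⟩
    have h2 := hFT hxy
    rcases h with ⟨h1, h2'⟩ | ⟨h1, h2'⟩
    · rw [h1, h2']; exact h2
    · rw [h1, h2']; exact h2.symm
  have hclass : ∀ a b, c a = c b → (G.graphOf A).Reachable a b := by
    intro a b hab
    have h1 := G.class_connected k hk c hcd a b hab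
    rw [← hFreach] at h1
    exact h1.mono hFA
  -- representatives of the classes
  have hrep : ∀ x, ∃ y, c y = c x := fun x => ⟨x, rfl⟩
  set g : V → V := fun j => if h : ∃ y, c y = j then Classical.choose h else j with hg'
  have hgc : ∀ x, c (g (c x)) = c x := by
    intro x
    have hex : ∃ y, c y = c x := ⟨x, rfl⟩
    have : g (c x) = Classical.choose hex := by
      simp only [hg']
      rw [dif_pos hex]
    rw [this]
    exact Classical.choose_spec hex
  set Reps := (univ.image c).image g with hReps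
  have hmem : ∀ x, g (c x) ∈ Reps :=
    fun x => mem_image_of_mem g (mem_image_of_mem c (mem_univ x))
  set ρ := g (c a0) with hρ
  set H := G.graphOf A ⊔ starGraph ρ Reps with hH
  have hconnH : H.Connected := by
    refine (SimpleGraph.connected_iff_exists_forall_reachable _).2 ⟨ρ, fun z => ?_⟩
    have h1 : H.Reachable z (g (c z)) := (hclass z (g (c z)) (hgc z).symm).mono le_sup_left
    by_cases h : ρ = g (c z)
    · rw [h]; exact h1.symm
    · exact ((starGraph_adj ρ Reps (hmem z) h).reachable.mono le_sup_right).trans h1.symm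
  have hW := ncard_edgeSet_starGraph ρ Reps (hmem a0)
  have h1 := G.card_le_of_connected_sup A (starGraph ρ Reps) (Reps.card - 1) (by omega) hconnH
  have h2 := card_filter_add_card_filter_not (s := T0) (fun e => c (G.src e) = c (G.tgt e))
  have h3 := hT0tree.2
  have h4 : Reps.card ≤ (univ.image c).card := card_image_le
  have h5 := card_pos.mpr ⟨ρ, hmem a0⟩
  rw [← hA] at h2
  omega

end Vale.Agent.Lib.P061
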