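import Vale.Agent.Lib.P061.Dense.Degree

/-!
# Dense simple graphs have thin spanning trees

Every simple graph on `n` vertices in which every cut has at least `k ≥ 1` edges has a spanning
tree `T` with `|δ_T(S)| ≤ (68 n² / k³) |δ_G(S)|` for every cut.
-/

namespace Vale.Agent.Lib.P061

open Finset

variable {V E : Type} [Fintype V] [Fintype E] [DecidableEq V] [DecidableEq E]

set_option linter.unusedSectionVars false

/-- The partition into cut-dense classes. -/
lemma Multigraph.exists_partition (G : Multigraph V E) (hs : G.IsSimple)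
    (hV : 2 ≤ Fintype.card V) (k : ℕ) (hconn : G.EdgeConnected k) :
    ∃ c : V → V, G.CutDense k c ∧ (∀ x, k + 2 ≤ 2 * (cls c (c x)).card) ∧
      (univ.image c).card * (k + 2) ≤ 2 * Fintype.card V := by
  have hne : Nonempty V := Fintype.card_pos_iff.mp (by omega)
  obtain ⟨c, hc⟩ := Finite.exists_max (fun c : V → V => G.pot k c)
  exact ⟨c, fun j X hX => G.split_stable k c hc j X hX,
    fun x => G.class_large k hs hV hconn c hc x, G.num_classes k hs hV hconn c hc⟩

/-- A spanning tree with few inter-class edges and bounded degrees inside the classes. -/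
lemma Multigraph.exists_good_tree (G : Multigraph V E) (hs : G.IsSimple)
    (hV : 2 ≤ Fintype.card V) (k : ℕ) (hk : 1 ≤ k) (hconn : G.EdgeConnected k) (c : V → V)
    (hcd : G.CutDense k c) (hsize : ∀ x, k + 2 ≤ 2 * (cls c (c x)).card) :
    ∃ T : Finset E, G.IsSpanningTree T ∧ G.inter c T + 1 ≤ (univ.image c).card ∧
      ∀ v, G.indeg c T v * k ≤ 8 * Fintype.card V := by
  classical
  obtain ⟨a0⟩ : Nonempty V := Fintype.card_pos_iff.mp (by omega)
  obtain ⟨T0, hT0, hT0i⟩ := G.exists_initial_tree hs k hk hconn c hcd a0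
  set fam := univ.filter (fun T : Finset E =>
    G.IsSpanningTree T ∧ G.inter c T + 1 ≤ (univ.image c).card) with hfam
  have hne : fam.Nonempty := ⟨T0, by rw [hfam, mem_filter]; exact ⟨mem_univ _, hT0, hT0i⟩⟩
  obtain ⟨T, hTmem, hTmin⟩ := exists_min_image fam (fun T => G.phi c T) hne
  rw [hfam, mem_filter] at hTmem
  refine ⟨T, hTmem.2.1, hTmem.2.2, fun v => G.indeg_bound hs k c hcd hsize T hTmem.2.1 ?_ v⟩
  intro T' hT' hi
  apply hTmin
  rw [hfam, mem_filter]
  refine ⟨mem_univ _, hT', ?_⟩
  rw [hi]
  exact hTmem.2.2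

/-- The cut estimate for a good tree. -/
lemma Multigraph.thin_of_good (G : Multigraph V E) (k : ℕ)
    (hconn : G.EdgeConnected k) (c : V → V) (hcd : G.CutDense k c)
    (hsize : ∀ x, k + 2 ≤ 2 * (cls c (c x)).card)
    (hr : (univ.image c).card * (k + 2) ≤ 2 * Fintype.card V)
    (T : Finset E) (hinter : G.inter c T + 1 ≤ (univ.image c).card)
    (hdeg : ∀ v, G.indeg c T v * k ≤ 8 * Fintype.card V)
    (S : Finset V) (hS : S.Nonempty) (hS' : S ≠ univ) :
    k ^ 3 * (T ∩ G.cut S).card ≤
      (64 * Fintype.card V ^ 2 + 2 * Fintype.card V * k) * (G.cut S).card := by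
  set n := Fintype.card V with hn
  set Tin := (T ∩ G.cut S).filter (fun e => c (G.src e) = c (G.tgt e)) with hTin
  set Tout := (T ∩ G.cut S).filter (fun e => ¬ c (G.src e) = c (G.tgt e)) with hTout
  have hsplit : Tin.card + Tout.card = (T ∩ G.cut S).card :=
    card_filter_add_card_filter_not (s := T ∩ G.cut S) (fun e => c (G.src e) = c (G.tgt e))
  have hcut : k ≤ (G.cut S).card := hconn S hS hS'
  -- inter-class edges
  have hout : k ^ 3 * Tout.card ≤ 2 * n * k * (G.cut S).card := by
    have h1 : Tout.card ≤ G.inter c T := by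
      apply card_le_card
      intro e he
      rw [hTout, mem_filter, mem_inter] at he
      rw [mem_filter]
      exact ⟨he.1.1, he.2⟩
    have h2 : k * Tout.card ≤ 2 * n := by
      have h3 : k * Tout.card ≤ (univ.image c).card * (k + 2) := by
        have h4 : Tout.card ≤ (univ.image c).card := by omega
        calc k * Tout.card ≤ k * (univ.image c).card := Nat.mul_le_mul_left _ h4
          _ = (univ.image c).card * k := mul_comm _ _
          _ ≤ (univ.image c).card * (k + 2) := Nat.mul_le_mul_left _ (by omega)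
      exact h3.trans hr
    calc k ^ 3 * Tout.card = k ^ 2 * (k * Tout.card) := by ring
      _ ≤ k ^ 2 * (2 * n) := Nat.mul_le_mul_left _ h2
      _ = 2 * n * k * k := by ring
      _ ≤ 2 * n * k * (G.cut S).card := Nat.mul_le_mul_left _ hcut
  -- intra-class edges, class by class
  have hclass : ∀ j : V, k ^ 3 * (Tin.filter (fun e => c (G.src e) = j)).card ≤
      64 * n ^ 2 *
        (G.btw ((cls c j).filter (fun x => x ∈ S)) (cls c j \ (cls c j).filter (fun x => x ∈ S))).card := by
    intro j
    set A := (cls c j).filter (fun x => x ∈ S) with hA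
    set B := cls c j \ A with hB
    set Tj := Tin.filter (fun e => c (G.src e) = j) with hTj
    have hAmem : ∀ x, x ∈ A ↔ c x = j ∧ x ∈ S := by
      intro x
      rw [hA, mem_filter, mem_cls]
    have hBmem : ∀ x, x ∈ B ↔ c x = j ∧ x ∉ S := by
      intro x
      rw [hB, mem_sdiff, mem_cls, hAmem]
      constructor
      · rintro ⟨h1, h2⟩
        exact ⟨h1, fun h => h2 ⟨h1, h⟩⟩
      · rintro ⟨h1, h2⟩
        exact ⟨h1, fun h => h2 h.2⟩
    have hTjmem : ∀ e ∈ Tj, e ∈ T ∧ c (G.src e) = c (G.tgt e) ∧
        ((G.src e ∈ A ∧ G.tgt e ∈ B) ∨ (G.src e ∈ B ∧ G.tgt e ∈ A)) := by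
      intro e he
      rw [hTj, mem_filter, hTin, mem_filter, mem_inter, G.mem_cut] at he
      obtain ⟨⟨⟨heT, hec⟩, hintra⟩, hj⟩ := he
      refine ⟨heT, hintra, ?_⟩
      have hj' : c (G.tgt e) = j := hintra ▸ hj
      rcases hec with ⟨h1, h2⟩ | ⟨h1, h2⟩
      · left
        exact ⟨(hAmem _).mpr ⟨hj, h1⟩, (hBmem _).mpr ⟨hj', h2⟩⟩
      · right
        exact ⟨(hBmem _).mpr ⟨hj, h1⟩, (hAmem _).mpr ⟨hj', h2⟩⟩
    -- the smaller side
    have hkey : ∀ M M' : Finset V, (∀ e ∈ Tj, G.src e ∈ M ∨ G.tgt e ∈ M) →
        M.card ≤ M'.card → M.card + M'.card = (cls c j).card →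
        A.card * B.card = M.card * M'.card →
        k ^ 3 * Tj.card ≤ 64 * n ^ 2 * (G.btw A B).card := by
      intro M M' hM hle hsum hprod
      rcases M.eq_empty_or_nonempty with hMe | ⟨x0, hx0⟩
      · have : Tj = ∅ := by
          rw [eq_empty_iff_forall_notMem]
          intro e he
          rcases hM e he with h | h
          · rw [hMe] at h; exact absurd h (notMem_empty _)
          · rw [hMe] at h; exact absurd h (notMem_empty _)
        rw [this, card_empty, mul_zero]
        exact Nat.zero_le _
      -- the class is nonempty, hence large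
      have hpos : 0 < (cls c j).card := by
        have := card_pos.mpr ⟨x0, hx0⟩
        omega
      obtain ⟨x1, hx1⟩ := card_pos.mp hpos
      rw [mem_cls] at hx1
      have hlarge : k + 2 ≤ 2 * (cls c j).card := by
        have := hsize x1
        rw [hx1] at this
        exact this
      have h1 : Tj.card ≤ ∑ x ∈ M, G.indeg c T x := by
        have hsub : Tj ⊆ M.biUnion (fun x => T.filter
            (fun e => c (G.src e) = c (G.tgt e) ∧ (G.src e = x ∨ G.tgt e = x))) := by
          intro e he
          obtain ⟨heT, hintra, _⟩ := hTjmem e he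
          rw [mem_biUnion]
          rcases hM e he with h | h
          · exact ⟨G.src e, h, mem_filter.mpr ⟨heT, hintra, Or.inl rfl⟩⟩
          · exact ⟨G.tgt e, h, mem_filter.mpr ⟨heT, hintra, Or.inr rfl⟩⟩
        exact (card_le_card hsub).trans card_biUnion_le
      have h2 : k * Tj.card ≤ M.card * (8 * n) := by
        calc k * Tj.card ≤ k * ∑ x ∈ M, G.indeg c T x := Nat.mul_le_mul_left _ h1
          _ = ∑ x ∈ M, G.indeg c T x * k := by
              rw [mul_sum]
              exact sum_congr rfl (fun x _ => mul_comm _ _)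
          _ ≤ ∑ _x ∈ M, 8 * n := sum_le_sum (fun x _ => hdeg x)
          _ = M.card * (8 * n) := by rw [sum_const, smul_eq_mul]
      have h3 := hcd j A (fun x hx => ((hAmem x).mp hx).1)
      rw [← hB, hprod] at h3
      have h4 : k ≤ 4 * M'.card := by omega
      have h5 : k * M.card * k ≤ 8 * n * (G.btw A B).card := by
        calc k * M.card * k ≤ k * M.card * (4 * M'.card) := Nat.mul_le_mul_left _ h4
          _ = 4 * (k * (M.card * M'.card)) := by ring
          _ ≤ 4 * (2 * n * (G.btw A B).card) := Nat.mul_le_mul_left _ h3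
          _ = 8 * n * (G.btw A B).card := by ring
      calc k ^ 3 * Tj.card = k ^ 2 * (k * Tj.card) := by ring
        _ ≤ k ^ 2 * (M.card * (8 * n)) := Nat.mul_le_mul_left _ h2
        _ = 8 * n * (k * M.card * k) := by ring
        _ ≤ 8 * n * (8 * n * (G.btw A B).card) := Nat.mul_le_mul_left _ h5
        _ = 64 * n ^ 2 * (G.btw A B).card := by ring
    have hAB : A.card + B.card = (cls c j).card := by
      have h := card_sdiff_add_card_eq_card (filter_subset (fun x => x ∈ S) (cls c j))
      rw [add_comm]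
      exact h
    rcases le_total A.card B.card with hle | hle
    · refine hkey A B (fun e he => ?_) hle hAB rfl
      rcases (hTjmem e he).2.2 with h | h
      · exact Or.inl h.1
      · exact Or.inr h.2
    · refine hkey B A (fun e he => ?_) hle (by omega) (mul_comm _ _)
      rcases (hTjmem e he).2.2 with h | h
      · exact Or.inr h.2
      · exact Or.inl h.1
  -- sum over the classes
  have hin : k ^ 3 * Tin.card ≤ 64 * n ^ 2 * (G.cut S).card := by
    have h1 : Tin.card = ∑ j : V, (Tin.filter (fun e => c (G.src e) = j)).card :=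
      card_eq_sum_card_fiberwise (f := fun e => c (G.src e)) (s := Tin) (t := univ)
        (fun x _ => mem_univ _)
    have hdisj : ((univ : Finset V) : Set V).PairwiseDisjoint (fun j =>
        G.btw ((cls c j).filter (fun x => x ∈ S))
          (cls c j \ (cls c j).filter (fun x => x ∈ S))) := by
      intro j _ j' _ hne
      rw [Function.onFun, Finset.disjoint_left]
      intro e he he'
      rw [G.mem_btw] at he he'
      have hj : c (G.src e) = j := by
        rcases he with ⟨h, _⟩ | ⟨h, _⟩
        · rw [mem_filter, mem_cls] at h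
          exact h.1
        · rw [mem_sdiff, mem_cls] at h
          exact h.1
      have hj' : c (G.src e) = j' := by
        rcases he' with ⟨h, _⟩ | ⟨h, _⟩
        · rw [mem_filter, mem_cls] at h
          exact h.1
        · rw [mem_sdiff, mem_cls] at h
          exact h.1
      exact hne (hj.symm.trans hj')
    have hsub : (univ : Finset V).biUnion (fun j =>
        G.btw ((cls c j).filter (fun x => x ∈ S))
          (cls c j \ (cls c j).filter (fun x => x ∈ S))) ⊆ G.cut S := by
      intro e he
      rw [mem_biUnion] at he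
      obtain ⟨j, _, he⟩ := he
      rw [G.mem_btw] at he
      rw [G.mem_cut]
      rcases he with ⟨h1, h2⟩ | ⟨h1, h2⟩
      · rw [mem_filter] at h1
        rw [mem_sdiff, mem_filter, mem_cls] at h2
        exact Or.inl ⟨h1.2, fun h => h2.2 ⟨h2.1, h⟩⟩
      · rw [mem_filter] at h2
        rw [mem_sdiff, mem_filter, mem_cls] at h1
        exact Or.inr ⟨fun h => h1.2 ⟨h1.1, h⟩, h2.2⟩
    have h2 := card_le_card hsub
    rw [card_biUnion hdisj] at h2
    calc k ^ 3 * Tin.card = ∑ j : V, k ^ 3 * (Tin.filter (fun e => c (G.src e) = j)).card := by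
          rw [h1, mul_sum]
      _ ≤ ∑ j : V, 64 * n ^ 2 * (G.btw ((cls c j).filter (fun x => x ∈ S))
            (cls c j \ (cls c j).filter (fun x => x ∈ S))).card :=
          sum_le_sum (fun j _ => hclass j)
      _ = 64 * n ^ 2 * ∑ j : V, (G.btw ((cls c j).filter (fun x => x ∈ S))
            (cls c j \ (cls c j).filter (fun x => x ∈ S))).card := by
          rw [mul_sum]
      _ ≤ 64 * n ^ 2 * (G.cut S).card := Nat.mul_le_mul_left _ h2
  calc k ^ 3 * (T ∩ G.cut S).card = k ^ 3 * Tin.card + k ^ 3 * Tout.card := by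
        rw [← hsplit]
        ring
    _ ≤ 64 * n ^ 2 * (G.cut S).card + 2 * n * k * (G.cut S).card := Nat.add_le_add hin hout
    _ = (64 * n ^ 2 + 2 * n * k) * (G.cut S).card := by ring

lemma Multigraph.IsThin.mono {G : Multigraph V E} {T : Finset E} {α β : ℝ}
    (h : G.IsThin T α) (hαβ : α ≤ β) : G.IsThin T β :=
  fun S hS hS' => (h S hS hS').trans (mul_le_mul_of_nonneg_right hαβ (Nat.cast_nonneg _))

/-- **Dense simple graphs have thin spanning trees.**  A loopless multigraph without parallel
edges on `n ≥ 2` vertices all of whose cuts have at least `k ≥ 1` edges has a spanning tree that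
is `(68 n² / k³)`-thin; in particular it is `((68 / ε²) / k)`-thin whenever `k ≥ ε n`. -/
theorem dense_thin (G : Multigraph V E) (k : ℕ) (hk : 1 ≤ k) (hV : 2 ≤ Fintype.card V)
    (hs : G.IsSimple) (hconn : G.EdgeConnected k) :
    ∃ T : Finset E, G.IsSpanningTree T ∧
      G.IsThin T (68 * (Fintype.card V : ℝ) ^ 2 / (k : ℝ) ^ 3) ∧
      ∀ ε : ℝ, 0 < ε → ε * (Fintype.card V : ℝ) ≤ k → G.IsThin T ((68 / ε ^ 2) / k) := by
  obtain ⟨c, hcd, hsize, hr⟩ := G.exists_partition hs hV k hconn
  obtain ⟨T, hT, hinter, hdeg⟩ := G.exists_good_tree hs hV k hk hconn c hcd hsize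
  have hkpos : (0 : ℝ) < k := by exact_mod_cast hk
  have hnpos : (0 : ℝ) < Fintype.card V := by
    have : 0 < Fintype.card V := by omega
    exact_mod_cast this
  have hthin : G.IsThin T (68 * (Fintype.card V : ℝ) ^ 2 / (k : ℝ) ^ 3) := by
    intro S hS hS'
    have h := G.thin_of_good k hconn c hcd hsize hr T hinter hdeg S hS hS'
    obtain ⟨x⟩ : Nonempty V := Fintype.card_pos_iff.mp (by omega)
    have hk2n : k ≤ 2 * Fintype.card V := by
      have h1 := hsize x
      have h2 : (cls c (c x)).card ≤ Fintype.card V := card_le_univ _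
      omega
    have h2 : 64 * Fintype.card V ^ 2 + 2 * Fintype.card V * k ≤ 68 * Fintype.card V ^ 2 := by
      have : Fintype.card V * k ≤ Fintype.card V * (2 * Fintype.card V) :=
        Nat.mul_le_mul_left _ hk2n
      nlinarith
    have h3 : k ^ 3 * (T ∩ G.cut S).card ≤ 68 * Fintype.card V ^ 2 * (G.cut S).card :=
      h.trans (Nat.mul_le_mul_right _ h2)
    have h4 : (k : ℝ) ^ 3 * ((T ∩ G.cut S).card : ℝ) ≤
        68 * (Fintype.card V : ℝ) ^ 2 * ((G.cut S).card : ℝ) := by
      exact_mod_cast h3
    rw [div_mul_eq_mul_div, le_div_iff₀ (by positivity)]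
    linarith
  refine ⟨T, hT, hthin, fun ε hε hεn => hthin.mono ?_⟩
  rw [div_div, div_le_div_iff₀ (by positivity) (by positivity)]
  have h1 : (ε * (Fintype.card V : ℝ)) ^ 2 ≤ (k : ℝ) ^ 2 :=
    pow_le_pow_left₀ (by positivity) hεn 2
  have h2 : (ε * (Fintype.card V : ℝ)) ^ 2 * k ≤ (k : ℝ) ^ 2 * k :=
    mul_le_mul_of_nonneg_right h1 hkpos.le
  nlinarith

end Vale.Agent.Lib.P061
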