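import Vale.Agent.Lib.P061.Dense.Count

/-!
# Dense simple graphs: merge stability, class sizes, number of classes
-/

namespace Vale.Agent.Lib.P061

open Finset

variable {V E : Type} [Fintype V] [Fintype E] [DecidableEq V] [DecidableEq E]

set_option linter.unusedSectionVars false

lemma cls_disjoint (c : V → V) {j1 j2 : V} (hne : j1 ≠ j2) : Disjoint (cls c j1) (cls c j2) := by
  rw [Finset.disjoint_left]
  intro a ha hb
  rw [mem_cls] at ha hb
  exact hne (ha.symm.trans hb)

/-- Merge stability: in a potential-maximising colouring there are few edges between two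
classes. -/
lemma Multigraph.merge_stable (G : Multigraph V E) (k : ℕ) (c : V → V)
    (hmax : ∀ c', G.pot k c' ≤ G.pot k c) (j1 j2 : V) (hne : j1 ≠ j2) :
    2 * Fintype.card V * (G.btw (cls c j1) (cls c j2)).card ≤
      k * ((cls c j1).card * (cls c j2).card) := by
  set U := cls c j1 with hU
  set W := cls c j2 with hW
  set c' : V → V := fun x => if c x = j2 then j1 else c x with hc'
  have hdisj : Disjoint U W := cls_disjoint c hne
  have hE : G.intraE c' = G.intraE c ∪ G.btw U W := by
    ext e
    rw [mem_union, G.mem_intraE, G.mem_intraE, G.mem_btw, hU, hW, mem_cls, mem_cls, mem_cls,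
      mem_cls]
    simp only [hc']
    generalize c (G.src e) = p
    generalize c (G.tgt e) = q
    by_cases h1 : p = j2 <;> by_cases h2 : q = j2
    · subst h1; subst h2; simp
    · subst h1
      rw [if_pos rfl, if_neg h2]
      constructor
      · intro h; right; right; exact ⟨rfl, h.symm⟩
      · rintro (h | ⟨h, _⟩ | ⟨_, h⟩)
        · exact absurd h.symm h2
        · exact absurd h.symm hne
        · exact h.symm
    · subst h2
      rw [if_neg h1, if_pos rfl]
      constructor
      · intro h; right; left; exact ⟨h, rfl⟩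
      · rintro (h | ⟨h, _⟩ | ⟨_, h⟩)
        · exact absurd h h1
        · exact h
        · exact absurd h.symm hne
    · rw [if_neg h1, if_neg h2]
      constructor
      · intro h; left; exact h
      · rintro (h | ⟨_, h⟩ | ⟨h, _⟩)
        · exact h
        · exact absurd h h2
        · exact absurd h h1
  have hEdisj : Disjoint (G.intraE c) (G.btw U W) := by
    rw [Finset.disjoint_left]
    intro e he hb
    rw [G.mem_intraE] at he
    rw [G.mem_btw, hU, hW, mem_cls, mem_cls, mem_cls, mem_cls] at hb
    rcases hb with ⟨h1, h2⟩ | ⟨h1, h2⟩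
    · exact hne (h1.symm.trans (he.trans h2))
    · exact hne (h2.symm.trans (he.symm.trans h1))
  have hEc : (G.intraE c').card = (G.intraE c).card + (G.btw U W).card := by
    rw [hE, card_union_of_disjoint hEdisj]
  have hP : samePairs c' = samePairs c ∪ (U ×ˢ W ∪ W ×ˢ U) := by
    ext ⟨a, b⟩
    rw [mem_union, mem_samePairs, mem_samePairs, mem_union, mem_product, mem_product, hU, hW,
      mem_cls, mem_cls, mem_cls, mem_cls]
    simp only [hc']
    generalize c a = p
    generalize c b = q
    by_cases h1 : p = j2 <;> by_cases h2 : q = j2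
    · subst h1; subst h2; simp
    · subst h1
      rw [if_pos rfl, if_neg h2]
      constructor
      · intro h; right; right; exact ⟨rfl, h.symm⟩
      · rintro (h | ⟨h, _⟩ | ⟨_, h⟩)
        · exact absurd h.symm h2
        · exact absurd h.symm hne
        · exact h.symm
    · subst h2
      rw [if_neg h1, if_pos rfl]
      constructor
      · intro h; right; left; exact ⟨h, rfl⟩
      · rintro (h | ⟨h, _⟩ | ⟨_, h⟩)
        · exact absurd h h1
        · exact h
        · exact absurd h.symm hne
    · rw [if_neg h1, if_neg h2]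
      constructor
      · intro h; left; exact h
      · rintro (h | ⟨_, h⟩ | ⟨h, _⟩)
        · exact h
        · exact absurd h h2
        · exact absurd h h1
  have hPdisj : Disjoint (samePairs c) (U ×ˢ W ∪ W ×ˢ U) := by
    rw [Finset.disjoint_left]
    rintro ⟨a, b⟩ he hb
    rw [mem_samePairs] at he
    rw [mem_union, mem_product, mem_product, hU, hW, mem_cls, mem_cls, mem_cls, mem_cls] at hb
    rcases hb with ⟨h1, h2⟩ | ⟨h1, h2⟩
    · exact hne (h1.symm.trans (he.trans h2))
    · exact hne (h2.symm.trans (he.symm.trans h1))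
  have hPc : (samePairs c').card = (samePairs c).card + 2 * (U.card * W.card) := by
    rw [hP, card_union_of_disjoint hPdisj, card_cross U W hdisj]
  have hpot := hmax c'
  unfold Multigraph.pot at hpot
  rw [hEc, hPc] at hpot
  push_cast at hpot
  have h3 : 2 * (Fintype.card V : ℤ) * ((G.btw U W).card : ℤ) ≤
      (k : ℤ) * ((U.card : ℤ) * (W.card : ℤ)) := by
    nlinarith
  exact_mod_cast h3

/-- Edges with both ends in `U`. -/
def Multigraph.inside (G : Multigraph V E) (U : Finset V) : Finset E :=
  univ.filter (fun e => G.src e ∈ U ∧ G.tgt e ∈ U)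

lemma Multigraph.mem_inside (G : Multigraph V E) (U : Finset V) (e : E) :
    e ∈ G.inside U ↔ G.src e ∈ U ∧ G.tgt e ∈ U := by
  simp [Multigraph.inside]

/-- Handshake identity for a vertex set. -/
lemma Multigraph.sum_card_cut_singleton (G : Multigraph V E) (U : Finset V) :
    ∑ y ∈ U, (G.cut {y}).card = 2 * (G.inside U).card + (G.cut U).card := by
  calc ∑ y ∈ U, (G.cut {y}).card
      = ∑ y ∈ U, ∑ e : E, ((if G.src e = y then 1 else 0) + (if G.tgt e = y then 1 else 0)) := by
        refine sum_congr rfl (fun y _ => ?_)
        rw [Multigraph.cut, card_filter]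
        refine sum_congr rfl (fun e _ => ?_)
        have hl := G.loopless e
        by_cases h1 : G.src e = y <;> by_cases h2 : G.tgt e = y
        · exact absurd (h1.trans h2.symm) hl
        · simp [h1, h2]
        · simp [h1, h2]
        · simp [h1, h2]
    _ = ∑ e : E, ∑ y ∈ U, ((if G.src e = y then 1 else 0) + (if G.tgt e = y then 1 else 0)) :=
        sum_comm
    _ = ∑ e : E, ((if G.src e ∈ U then 1 else 0) + (if G.tgt e ∈ U then 1 else 0)) := by
        refine sum_congr rfl (fun e _ => ?_)
        rw [sum_add_distrib, sum_ite_eq, sum_ite_eq]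
    _ = 2 * (G.inside U).card + (G.cut U).card := by
        rw [Multigraph.inside, Multigraph.cut, card_filter, card_filter, mul_sum,
          ← sum_add_distrib]
        refine sum_congr rfl (fun e _ => ?_)
        by_cases h1 : G.src e ∈ U <;> by_cases h2 : G.tgt e ∈ U <;> simp [h1, h2]

/-- A simple graph has at most `u (u - 1) / 2` edges inside a set of `u` vertices. -/
lemma Multigraph.card_inside_le (G : Multigraph V E) (hs : G.IsSimple) (U : Finset V) :
    2 * (G.inside U).card + U.card ≤ U.card * U.card := by
  have h1 : ((G.inside U).image (fun e => (G.src e, G.tgt e))).card = (G.inside U).card := by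
    apply card_image_of_injOn
    intro e _ f _ hef
    simp only [Prod.mk.injEq] at hef
    exact hs e f (Or.inl hef)
  have h2 : ((G.inside U).image (fun e => (G.tgt e, G.src e))).card = (G.inside U).card := by
    apply card_image_of_injOn
    intro e _ f _ hef
    simp only [Prod.mk.injEq] at hef
    exact hs e f (Or.inl ⟨hef.2, hef.1⟩)
  have hd : Disjoint ((G.inside U).image (fun e => (G.src e, G.tgt e)))
      ((G.inside U).image (fun e => (G.tgt e, G.src e))) := by
    rw [Finset.disjoint_left]
    intro p hp hq
    rw [mem_image] at hp hq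
    obtain ⟨e, _, rfl⟩ := hp
    obtain ⟨f, _, hf⟩ := hq
    simp only [Prod.mk.injEq] at hf
    have hef : e = f := hs e f (Or.inr ⟨hf.1.symm, hf.2.symm⟩)
    subst hef
    exact G.loopless e hf.2
  have hsub : (G.inside U).image (fun e => (G.src e, G.tgt e)) ∪
      (G.inside U).image (fun e => (G.tgt e, G.src e)) ⊆ U.offDiag := by
    intro p hp
    rw [mem_union, mem_image, mem_image] at hp
    rw [mem_offDiag]
    rcases hp with ⟨e, he, rfl⟩ | ⟨e, he, rfl⟩
    · rw [G.mem_inside] at he
      exact ⟨he.1, he.2, G.loopless e⟩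
    · rw [G.mem_inside] at he
      exact ⟨he.2, he.1, (G.loopless e).symm⟩
  have h3 := card_le_card hsub
  rw [card_union_of_disjoint hd, h1, h2, offDiag_card] at h3
  have h4 : U.card ≤ U.card * U.card := by
    rcases Nat.eq_zero_or_pos U.card with h | h
    · simp [h]
    · exact Nat.le_mul_of_pos_left _ h
  omega

lemma sum_card_cls (c : V → V) : ∑ j : V, (cls c j).card = Fintype.card V := by
  have h := card_eq_sum_card_fiberwise (f := c) (s := (univ : Finset V)) (t := (univ : Finset V))
    (fun x _ => mem_univ _)
  rw [card_univ] at h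
  rw [h]
  rfl

/-- In a potential-maximising colouring of a `k`-edge-connected simple graph every class has more
than `k / 2 + 1` vertices. -/
lemma Multigraph.class_large (G : Multigraph V E) (k : ℕ) (hs : G.IsSimple)
    (hV : 2 ≤ Fintype.card V) (hconn : G.EdgeConnected k) (c : V → V)
    (hmax : ∀ c', G.pot k c' ≤ G.pot k c) (x : V) :
    k + 2 ≤ 2 * (cls c (c x)).card := by
  set U := cls c (c x) with hU
  have hxU : x ∈ U := by rw [hU, mem_cls]
  have hu : 1 ≤ U.card := card_pos.mpr ⟨x, hxU⟩
  have h1 : k * U.card ≤ ∑ y ∈ U, (G.cut {y}).card := by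
    rw [mul_comm, ← smul_eq_mul, ← sum_const]
    refine sum_le_sum (fun y _ => ?_)
    refine hconn {y} (singleton_nonempty y) ?_
    intro h
    have := congrArg Finset.card h
    rw [card_singleton, card_univ] at this
    omega
  rw [G.sum_card_cut_singleton] at h1
  have h3 := G.card_inside_le hs U
  have h4 : 2 * Fintype.card V * (G.cut U).card + k * U.card * U.card ≤
      k * U.card * Fintype.card V := by
    have hsub : G.cut U ⊆ (univ.erase (c x)).biUnion (fun j => G.btw U (cls c j)) := by
      intro e he
      rw [G.mem_cut] at he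
      rw [mem_biUnion]
      rcases he with ⟨h1, h2⟩ | ⟨h1, h2⟩
      · refine ⟨c (G.tgt e), ?_, ?_⟩
        · rw [mem_erase]
          refine ⟨?_, mem_univ _⟩
          intro h
          exact h2 (by rw [hU, mem_cls]; exact h)
        · rw [G.mem_btw]
          left
          exact ⟨h1, by rw [mem_cls]⟩
      · refine ⟨c (G.src e), ?_, ?_⟩
        · rw [mem_erase]
          refine ⟨?_, mem_univ _⟩
          intro h
          exact h1 (by rw [hU, mem_cls]; exact h)
        · rw [G.mem_btw]
          right
          exact ⟨by rw [mem_cls], h2⟩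
    have hc1 : (G.cut U).card ≤ ∑ j ∈ univ.erase (c x), (G.btw U (cls c j)).card :=
      (card_le_card hsub).trans card_biUnion_le
    have hc2 : ∑ j ∈ univ.erase (c x), 2 * Fintype.card V * (G.btw U (cls c j)).card ≤
        ∑ j ∈ univ.erase (c x), k * (U.card * (cls c j).card) := by
      refine sum_le_sum (fun j hj => ?_)
      rw [mem_erase] at hj
      exact G.merge_stable k c hmax (c x) j (Ne.symm hj.1)
    rw [← mul_sum, ← mul_sum, ← mul_sum] at hc2
    have hc3 : ∑ j ∈ univ.erase (c x), (cls c j).card + U.card = Fintype.card V := by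
      rw [← sum_card_cls c, hU]
      exact sum_erase_add _ _ (mem_univ _)
    have hc4 : 2 * Fintype.card V * (G.cut U).card ≤
        k * (U.card * ∑ j ∈ univ.erase (c x), (cls c j).card) :=
      (Nat.mul_le_mul_left _ hc1).trans hc2
    rw [← hc3]
    nlinarith
  -- arithmetic
  have hn : (0 : ℤ) < Fintype.card V := by exact_mod_cast (by omega : 0 < Fintype.card V)
  have hu' : (1 : ℤ) ≤ U.card := by exact_mod_cast hu
  have h1' : (k : ℤ) * U.card ≤ 2 * (G.inside U).card + (G.cut U).card := by exact_mod_cast h1
  have h3' : 2 * ((G.inside U).card : ℤ) + U.card ≤ U.card * U.card := by exact_mod_cast h3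
  have h4' : 2 * (Fintype.card V : ℤ) * (G.cut U).card + k * U.card * U.card ≤
      k * U.card * Fintype.card V := by exact_mod_cast h4
  have hk0 : (0 : ℤ) ≤ k := by exact_mod_cast Nat.zero_le k
  by_contra hcon
  have hcon' : 2 * (U.card : ℤ) ≤ k + 1 := by
    have : 2 * U.card ≤ k + 1 := by omega
    exact_mod_cast this
  -- multiply h1' by 2n
  have e1 : 2 * (Fintype.card V : ℤ) * ((k : ℤ) * U.card) ≤
      2 * (Fintype.card V : ℤ) * (2 * (G.inside U).card + (G.cut U).card) :=
    mul_le_mul_of_nonneg_left h1' (by linarith)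
  have e2 : 2 * (Fintype.card V : ℤ) * (2 * ((G.inside U).card : ℤ)) ≤
      2 * (Fintype.card V : ℤ) * ((U.card : ℤ) * U.card - U.card) :=
    mul_le_mul_of_nonneg_left (by linarith) (by linarith)
  -- u * (2nk + ku + 2n) ≤ u * (2nu + kn)
  have e3 : (U.card : ℤ) * (2 * (Fintype.card V : ℤ) * k + k * U.card + 2 * Fintype.card V) ≤
      (U.card : ℤ) * (2 * (Fintype.card V : ℤ) * U.card + k * Fintype.card V) := by
    nlinarith
  have e4 : 2 * (Fintype.card V : ℤ) * k + k * U.card + 2 * Fintype.card V ≤
      2 * (Fintype.card V : ℤ) * U.card + k * Fintype.card V :=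
    le_of_mul_le_mul_left e3 (by linarith)
  have e5 : (Fintype.card V : ℤ) * (2 * U.card) ≤ (Fintype.card V : ℤ) * (k + 1) :=
    mul_le_mul_of_nonneg_left hcon' (by linarith)
  have e6 : (0 : ℤ) ≤ k * U.card := mul_nonneg hk0 (by linarith)
  nlinarith

/-- The number of classes of a potential-maximising colouring is less than `2 n / k`. -/
lemma Multigraph.num_classes (G : Multigraph V E) (k : ℕ) (hs : G.IsSimple)
    (hV : 2 ≤ Fintype.card V) (hconn : G.EdgeConnected k) (c : V → V)
    (hmax : ∀ c', G.pot k c' ≤ G.pot k c) :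
    (univ.image c).card * (k + 2) ≤ 2 * Fintype.card V := by
  have h1 := card_eq_sum_card_image c (univ : Finset V)
  rw [card_univ] at h1
  rw [h1, mul_sum, ← smul_eq_mul, ← sum_const]
  refine sum_le_sum (fun j hj => ?_)
  rw [mem_image] at hj
  obtain ⟨x, _, rfl⟩ := hj
  exact G.class_large k hs hV hconn c hmax x

end Vale.Agent.Lib.P061
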