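import Vale.Agent.Lib.P061.Dense.Partition

/-!
# Dense simple graphs: reachability tools for spanning trees given as edge sets
-/

namespace Vale.Agent.Lib.P061

open Finset

variable {V E : Type} [Fintype V] [Fintype E] [DecidableEq V] [DecidableEq E]

set_option linter.unusedSectionVars false

lemma Multigraph.graphOf_adj_iff (G : Multigraph V E) (T : Finset E) (a b : V) :
    (G.graphOf T).Adj a b ↔
      ∃ e ∈ T, (G.src e = a ∧ G.tgt e = b) ∨ (G.src e = b ∧ G.tgt e = a) := by
  rw [Multigraph.graphOf, SimpleGraph.fromRel_adj]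
  constructor
  · rintro ⟨_, ⟨e, he, h1, h2⟩ | ⟨e, he, h1, h2⟩⟩
    · exact ⟨e, he, Or.inl ⟨h1, h2⟩⟩
    · exact ⟨e, he, Or.inr ⟨h1, h2⟩⟩
  · rintro ⟨e, he, ⟨h1, h2⟩ | ⟨h1, h2⟩⟩
    · exact ⟨by rw [← h1, ← h2]; exact G.loopless e, Or.inl ⟨e, he, h1, h2⟩⟩
    · exact ⟨by rw [← h1, ← h2]; exact (G.loopless e).symm, Or.inr ⟨e, he, h1, h2⟩⟩

lemma Multigraph.graphOf_mono (G : Multigraph V E) {T T' : Finset E} (h : T ⊆ T') :
    G.graphOf T ≤ G.graphOf T' := by
  intro a b hab
  rw [G.graphOf_adj_iff] at hab ⊢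
  obtain ⟨e, he, h'⟩ := hab
  exact ⟨e, h he, h'⟩

lemma Multigraph.reachable_mono (G : Multigraph V E) {T T' : Finset E} (h : T ⊆ T') {a b : V}
    (hr : (G.graphOf T).Reachable a b) : (G.graphOf T').Reachable a b :=
  hr.mono (G.graphOf_mono h)

lemma reachable_of_adj_imp {H H' : SimpleGraph V} (h : ∀ a b, H.Adj a b → H'.Reachable a b)
    {a b : V} (hr : H.Reachable a b) : H'.Reachable a b := by
  obtain ⟨p⟩ := hr
  induction p with
  | nil => exact SimpleGraph.Reachable.refl _
  | cons hadj _ ih => exact (h _ _ hadj).trans ih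

/-- The end of the edge `e` other than `v`. -/
def Multigraph.other (G : Multigraph V E) (e : E) (v : V) : V :=
  if G.src e = v then G.tgt e else G.src e

lemma Multigraph.other_ne (G : Multigraph V E) (e : E) (v : V)
    (_hev : G.src e = v ∨ G.tgt e = v) : G.other e v ≠ v := by
  unfold Multigraph.other
  by_cases h : G.src e = v
  · rw [if_pos h]
    intro h2
    exact G.loopless e (h.trans h2.symm)
  · rw [if_neg h]
    exact h

lemma Multigraph.ends_other (G : Multigraph V E) (e : E) (v : V)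
    (hev : G.src e = v ∨ G.tgt e = v) :
    (G.src e = G.other e v ∧ G.tgt e = v) ∨ (G.src e = v ∧ G.tgt e = G.other e v) := by
  unfold Multigraph.other
  by_cases h : G.src e = v
  · rw [if_pos h]
    exact Or.inr ⟨h, rfl⟩
  · rw [if_neg h]
    rcases hev with h' | h'
    · exact absurd h' h
    · exact Or.inl ⟨rfl, h'⟩

lemma Multigraph.adj_other (G : Multigraph V E) (T : Finset E) (e : E) (he : e ∈ T) (v : V)
    (hev : G.src e = v ∨ G.tgt e = v) : (G.graphOf T).Adj (G.other e v) v := by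
  rw [G.graphOf_adj_iff]
  refine ⟨e, he, ?_⟩
  rcases G.ends_other e v hev with ⟨h1, h2⟩ | ⟨h1, h2⟩
  · exact Or.inl ⟨h1, h2⟩
  · exact Or.inr ⟨h1, h2⟩

lemma Multigraph.other_of_ends (G : Multigraph V E) (e : E) (v z : V) (hz : z ≠ v)
    (h : (G.src e = z ∧ G.tgt e = v) ∨ (G.src e = v ∧ G.tgt e = z)) : G.other e v = z := by
  unfold Multigraph.other
  rcases h with ⟨h1, h2⟩ | ⟨h1, h2⟩
  · rw [if_neg (by rw [h1]; exact hz), h1]
  · rw [if_pos h1, h2]

/-- The edges of `T` not incident to `v`. -/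
def Multigraph.avoid (G : Multigraph V E) (T : Finset E) (v : V) : Finset E :=
  T.filter (fun e => G.src e ≠ v ∧ G.tgt e ≠ v)

lemma Multigraph.mem_avoid (G : Multigraph V E) (T : Finset E) (v : V) (e : E) :
    e ∈ G.avoid T v ↔ e ∈ T ∧ G.src e ≠ v ∧ G.tgt e ≠ v := by
  simp [Multigraph.avoid]

/-- Every vertex other than `v` lies in the branch of some tree edge at `v`. -/
lemma Multigraph.cover (G : Multigraph V E) (T : Finset E) (hconn : (G.graphOf T).Connected)
    (v z : V) (hz : z ≠ v) :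
    ∃ e ∈ T, (G.src e = v ∨ G.tgt e = v) ∧
      (G.graphOf (G.avoid T v)).Reachable (G.other e v) z := by
  obtain ⟨p⟩ := hconn.preconnected z v
  induction p with
  | nil => exact absurd rfl hz
  | @cons z w v hadj p ih =>
    by_cases hw : w = v
    · subst hw
      rw [G.graphOf_adj_iff] at hadj
      obtain ⟨e, he, h⟩ := hadj
      refine ⟨e, he, ?_, ?_⟩
      · rcases h with ⟨_, h2⟩ | ⟨h1, _⟩
        · exact Or.inr h2
        · exact Or.inl h1
      · rw [G.other_of_ends e w z hz h]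
    · obtain ⟨e, he, hev, hr⟩ := ih hw
      refine ⟨e, he, hev, hr.trans ?_⟩
      rw [G.graphOf_adj_iff] at hadj
      obtain ⟨e', he', h⟩ := hadj
      have hadj' : (G.graphOf (G.avoid T v)).Adj w z := by
        rw [G.graphOf_adj_iff]
        refine ⟨e', ?_, ?_⟩
        · rw [G.mem_avoid]
          rcases h with ⟨h1, h2⟩ | ⟨h1, h2⟩
          · exact ⟨he', by rw [h1]; exact hz, by rw [h2]; exact hw⟩
          · exact ⟨he', by rw [h1]; exact hw, by rw [h2]; exact hz⟩
        · rcases h with ⟨h1, h2⟩ | ⟨h1, h2⟩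
          · exact Or.inr ⟨h1, h2⟩
          · exact Or.inl ⟨h1, h2⟩
      exact hadj'.reachable

/-- `v` is isolated once the edges at `v` are removed. -/
lemma Multigraph.not_reachable_avoid (G : Multigraph V E) (T : Finset E) (v a : V) (ha : a ≠ v) :
    ¬ (G.graphOf (G.avoid T v)).Reachable a v := by
  intro h
  obtain ⟨p⟩ := h.symm
  cases p with
  | nil => exact ha rfl
  | cons hadj _ =>
    rw [G.graphOf_adj_iff] at hadj
    obtain ⟨e, he, h⟩ := hadj
    rw [G.mem_avoid] at he
    rcases h with ⟨h1, _⟩ | ⟨_, h2⟩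
    · exact he.2.1 h1
    · exact he.2.2 h2

lemma Multigraph.ncard_edgeSet_graphOf_le (G : Multigraph V E) (T : Finset E) :
    (G.graphOf T).edgeSet.ncard ≤ T.card := by
  have hsub : (G.graphOf T).edgeSet ⊆ (fun e => s(G.src e, G.tgt e)) '' (T : Set E) := by
    intro x hx
    induction x using Sym2.ind with
    | _ u v =>
      rw [SimpleGraph.mem_edgeSet, G.graphOf_adj_iff] at hx
      obtain ⟨e, he, ⟨h1, h2⟩ | ⟨h1, h2⟩⟩ := hx
      · exact ⟨e, he, by subst h1; subst h2; rfl⟩
      · exact ⟨e, he, by subst h1; subst h2; exact Sym2.eq_swap⟩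
  calc (G.graphOf T).edgeSet.ncard
      ≤ ((fun e => s(G.src e, G.tgt e)) '' (T : Set E)).ncard :=
        Set.ncard_le_ncard hsub ((Finset.finite_toSet T).image _)
    _ ≤ (T : Set E).ncard := Set.ncard_image_le (Finset.finite_toSet T)
    _ = T.card := Set.ncard_coe_finset T

lemma Multigraph.ncard_edgeSet_graphOf (G : Multigraph V E) (hs : G.IsSimple) (T : Finset E) :
    (G.graphOf T).edgeSet.ncard = T.card := by
  have heq : (G.graphOf T).edgeSet = (fun e => s(G.src e, G.tgt e)) '' (T : Set E) := by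
    ext x
    induction x using Sym2.ind with
    | _ u v =>
      rw [SimpleGraph.mem_edgeSet, G.graphOf_adj_iff]
      constructor
      · rintro ⟨e, he, ⟨h1, h2⟩ | ⟨h1, h2⟩⟩
        · exact ⟨e, he, by subst h1; subst h2; rfl⟩
        · exact ⟨e, he, by subst h1; subst h2; exact Sym2.eq_swap⟩
      · rintro ⟨e, he, h⟩
        refine ⟨e, he, ?_⟩
        rw [Sym2.eq_iff] at h
        exact h
  have hinj : Set.InjOn (fun e => s(G.src e, G.tgt e)) (T : Set E) := by
    intro e _ f _ hef
    simp only [Sym2.eq_iff] at hef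
    exact hs e f hef
  rw [heq, hinj.ncard_image, Set.ncard_coe_finset]

/-- Edge count: if the graph of `A` together with at most `m` extra edges is connected then
`|V| ≤ |A| + m + 1`. -/
lemma Multigraph.card_le_of_connected_sup (G : Multigraph V E) (A : Finset E) (W : SimpleGraph V)
    (m : ℕ) (hW : W.edgeSet.ncard ≤ m) (hconn : (G.graphOf A ⊔ W).Connected) :
    Fintype.card V ≤ A.card + m + 1 := by
  have h1 := hconn.card_vert_le_card_edgeSet_add_one
  rw [Nat.card_eq_fintype_card, Nat.card_coe_set_eq, SimpleGraph.edgeSet_sup] at h1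
  have h2 := Set.ncard_union_le (G.graphOf A).edgeSet W.edgeSet
  have h3 := G.ncard_edgeSet_graphOf_le A
  omega

lemma Multigraph.card_le_of_connected (G : Multigraph V E) (A : Finset E)
    (hconn : (G.graphOf A).Connected) : Fintype.card V ≤ A.card + 1 := by
  have h1 := hconn.card_vert_le_card_edgeSet_add_one
  rw [Nat.card_eq_fintype_card, Nat.card_coe_set_eq] at h1
  have h3 := G.ncard_edgeSet_graphOf_le A
  omega

/-- The star with centre `ρ` and leaves the other elements of `U`. -/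
def starGraph (ρ : V) (U : Finset V) : SimpleGraph V :=
  SimpleGraph.fromRel (fun a b => a = ρ ∧ b ∈ U)

lemma starGraph_adj (ρ : V) (U : Finset V) {b : V} (hb : b ∈ U) (hne : ρ ≠ b) :
    (starGraph ρ U).Adj ρ b := by
  rw [starGraph, SimpleGraph.fromRel_adj]
  exact ⟨hne, Or.inl ⟨rfl, hb⟩⟩

lemma ncard_edgeSet_starGraph (ρ : V) (U : Finset V) (hρ : ρ ∈ U) :
    (starGraph ρ U).edgeSet.ncard + 1 ≤ U.card := by
  have hsub : (starGraph ρ U).edgeSet ⊆ (fun b => s(ρ, b)) '' ((U.erase ρ : Finset V) : Set V) := by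
    intro x hx
    induction x using Sym2.ind with
    | _ u v =>
      rw [SimpleGraph.mem_edgeSet, starGraph, SimpleGraph.fromRel_adj] at hx
      obtain ⟨hne, ⟨h1, h2⟩ | ⟨h1, h2⟩⟩ := hx
      · refine ⟨v, ?_, by rw [h1]⟩
        rw [Finset.mem_coe, mem_erase]
        exact ⟨fun h => hne (h1.trans h.symm), h2⟩
      · refine ⟨u, ?_, by rw [h1, Sym2.eq_swap]⟩
        rw [Finset.mem_coe, mem_erase]
        exact ⟨fun h => hne (h.trans h1.symm), h2⟩
  have h1 : (starGraph ρ U).edgeSet.ncard ≤ (U.erase ρ).card :=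
    calc (starGraph ρ U).edgeSet.ncard
        ≤ ((fun b => s(ρ, b)) '' ((U.erase ρ : Finset V) : Set V)).ncard :=
          Set.ncard_le_ncard hsub ((Finset.finite_toSet _).image _)
      _ ≤ ((U.erase ρ : Finset V) : Set V).ncard := Set.ncard_image_le (Finset.finite_toSet _)
      _ = (U.erase ρ).card := Set.ncard_coe_finset _
  rw [card_erase_of_mem hρ] at h1
  have := card_pos.mpr ⟨ρ, hρ⟩
  omega

end Vale.Agent.Lib.P061
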