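import Vale.Agent.Lib.P061.Dense.Reach

/-!
# Dense simple graphs: exchange of tree edges, branches, and an initial spanning tree
-/

namespace Vale.Agent.Lib.P061

open Finset

variable {V E : Type} [Fintype V] [Fintype E] [DecidableEq V] [DecidableEq E]

set_option linter.unusedSectionVars false

lemma Multigraph.connected_of_reach (G : Multigraph V E) (T : Finset E) (v : V)
    (h : ∀ z, (G.graphOf T).Reachable z v) : (G.graphOf T).Connected := by
  exact (SimpleGraph.connected_iff_exists_forall_reachable _).2 ⟨v, fun z => (h z).symm⟩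

/-- Exchange: removing the tree edge `e` at `v` and adding an edge `f` from the other end of `e`
to a vertex `y` outside the branch of `e` keeps the graph connected. -/
lemma Multigraph.exchange_connected (G : Multigraph V E) (T : Finset E)
    (hconn : (G.graphOf T).Connected) (v : V) (e : E) (he : e ∈ T)
    (hev : G.src e = v ∨ G.tgt e = v) (f : E) (y : V)
    (hf : (G.src f = G.other e v ∧ G.tgt f = y) ∨ (G.src f = y ∧ G.tgt f = G.other e v))
    (hy : y ≠ v) (hyB : ¬ (G.graphOf (G.avoid T v)).Reachable (G.other e v) y) :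
    (G.graphOf (insert f (T.erase e))).Connected := by
  set T' := insert f (T.erase e) with hT'
  have hsub : G.avoid T v ⊆ T' := by
    intro e' he'
    rw [G.mem_avoid] at he'
    rw [hT', mem_insert, mem_erase]
    right
    refine ⟨?_, he'.1⟩
    rintro rfl
    rcases hev with h | h
    · exact he'.2.1 h
    · exact he'.2.2 h
  have h1 : ∀ e2 ∈ T, e2 ≠ e → (G.src e2 = v ∨ G.tgt e2 = v) →
      (G.graphOf T').Reachable (G.other e2 v) v := by
    intro e2 he2 hne hev2
    refine (G.adj_other T' e2 ?_ v hev2).reachable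
    rw [hT', mem_insert, mem_erase]
    exact Or.inr ⟨hne, he2⟩
  have hce : (G.graphOf T').Reachable (G.other e v) v := by
    have hadj : (G.graphOf T').Adj (G.other e v) y := by
      rw [G.graphOf_adj_iff]
      exact ⟨f, by rw [hT']; exact mem_insert_self _ _, hf⟩
    obtain ⟨e2, he2, hev2, hr⟩ := G.cover T hconn v y hy
    have hne : e2 ≠ e := by
      rintro rfl
      exact hyB hr
    exact hadj.reachable.trans ((G.reachable_mono hsub hr).symm.trans (h1 e2 he2 hne hev2))
  refine G.connected_of_reach T' v (fun z => ?_)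
  by_cases hz : z = v
  · rw [hz]
  · obtain ⟨e2, he2, hev2, hr⟩ := G.cover T hconn v z hz
    by_cases hne : e2 = e
    · subst hne
      exact (G.reachable_mono hsub hr).symm.trans hce
    · exact (G.reachable_mono hsub hr).symm.trans (h1 e2 he2 hne hev2)

/-- The branches of two different tree edges at `v` are different components. -/
lemma Multigraph.branch_disjoint (G : Multigraph V E) (T : Finset E) (hT : G.IsSpanningTree T)
    (v : V) (e e' : E) (he : e ∈ T) (he' : e' ∈ T) (hne : e ≠ e')
    (hev : G.src e = v ∨ G.tgt e = v) (hev' : G.src e' = v ∨ G.tgt e' = v) :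
    ¬ (G.graphOf (G.avoid T v)).Reachable (G.other e v) (G.other e' v) := by
  intro hr
  have hsub : G.avoid T v ⊆ T.erase e' := by
    intro e2 he2
    rw [G.mem_avoid] at he2
    rw [mem_erase]
    refine ⟨?_, he2.1⟩
    rintro rfl
    rcases hev' with h | h
    · exact he2.2.1 h
    · exact he2.2.2 h
  have h1 : ∀ e2 ∈ T, e2 ≠ e' → (G.src e2 = v ∨ G.tgt e2 = v) →
      (G.graphOf (T.erase e')).Reachable (G.other e2 v) v := by
    intro e2 he2 hne2 hev2
    refine (G.adj_other (T.erase e') e2 ?_ v hev2).reachable
    rw [mem_erase]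
    exact ⟨hne2, he2⟩
  have hconn : (G.graphOf (T.erase e')).Connected := by
    refine G.connected_of_reach (T.erase e') v (fun z => ?_)
    by_cases hz : z = v
    · rw [hz]
    · obtain ⟨e2, he2, hev2, hr2⟩ := G.cover T hT.1 v z hz
      by_cases hne2 : e2 = e'
      · subst hne2
        exact (G.reachable_mono hsub hr2).symm.trans
          ((G.reachable_mono hsub hr).symm.trans (h1 e he hne hev))
      · exact (G.reachable_mono hsub hr2).symm.trans (h1 e2 he2 hne2 hev2)
  have h2 := G.card_le_of_connected (T.erase e') hconn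
  rw [card_erase_of_mem he'] at h2
  have h3 := hT.2
  have h4 : 0 < T.card := card_pos.mpr ⟨e', he'⟩
  omega

/-- A spanning tree has at most `|U| - 1` edges inside a vertex set `U`. -/
lemma Multigraph.card_inside_tree_le (G : Multigraph V E) (T : Finset E)
    (hT : G.IsSpanningTree T) (U : Finset V) (ρ : V) (hρ : ρ ∈ U) :
    (T.filter (fun e => G.src e ∈ U ∧ G.tgt e ∈ U)).card + 1 ≤ U.card := by
  set A := T.filter (fun e => ¬ (G.src e ∈ U ∧ G.tgt e ∈ U)) with hA
  set H := G.graphOf A ⊔ starGraph ρ U with hH
  have hstar : ∀ a ∈ U, H.Reachable a ρ := by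
    intro a ha
    by_cases h : ρ = a
    · rw [h]
    · exact ((starGraph_adj ρ U ha h).reachable.mono le_sup_right).symm
  have hconn : H.Connected := by
    refine (SimpleGraph.connected_iff_exists_forall_reachable _).2 ⟨ρ, fun z => ?_⟩
    refine reachable_of_adj_imp (H := G.graphOf T) ?_ (hT.1.preconnected ρ z)
    intro a b hab
    rw [G.graphOf_adj_iff] at hab
    obtain ⟨e, he, h⟩ := hab
    by_cases hin : G.src e ∈ U ∧ G.tgt e ∈ U
    · have ha : a ∈ U := by
        rcases h with ⟨h1, h2⟩ | ⟨h1, h2⟩
        · rw [← h1]; exact hin.1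
        · rw [← h2]; exact hin.2
      have hb : b ∈ U := by
        rcases h with ⟨h1, h2⟩ | ⟨h1, h2⟩
        · rw [← h2]; exact hin.2
        · rw [← h1]; exact hin.1
      exact (hstar a ha).trans (hstar b hb).symm
    · have : (G.graphOf A).Adj a b := by
        rw [G.graphOf_adj_iff]
        exact ⟨e, by rw [hA, mem_filter]; exact ⟨he, hin⟩, h⟩
      exact this.reachable.mono le_sup_left
  have hW := ncard_edgeSet_starGraph ρ U hρ
  have h1 := G.card_le_of_connected_sup A (starGraph ρ U) (U.card - 1) (by omega) hconn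
  have h2 := card_filter_add_card_filter_not (s := T)
    (fun e => G.src e ∈ U ∧ G.tgt e ∈ U)
  have h3 := hT.2
  have h4 := card_pos.mpr ⟨ρ, hρ⟩
  rw [← hA] at h2
  omega

end Vale.Agent.Lib.P061
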